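import Vale.Agent.P076.NS.Defs
import Vale.Agent.P122.H518.E12
import Vale.Agent.P122.K931.Zero

/-!
# P076 / NS : balls and tubes of a system of flags (helper228)

`TG0.I2`, `TG0.I2'` for every system of flags with the counts `H518.Cts`.
-/

set_option autoImplicit false

namespace Vale.Agent.P076.NS

open Filter Topology Finset Vale.Agent.P127 Vale.Agent.P127.Stk Vale.Agent.P127.U Vale.Agent.P127.U.Sys Vale.Agent.P122.C2
  Vale.Agent.P122.E Vale.Agent.P122.H518 Vale.Agent.P122.K931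

theorem floor_near' {x y : ℝ} {C : ℕ} (h : |x - y| ≤ C) : |⌊x⌋ - ⌊y⌋| ≤ (C:ℤ) + 1 := by
  have h2 := Int.floor_le x
  have h3 := Int.lt_floor_add_one x
  have h4 := Int.floor_le y
  have h5 := Int.lt_floor_add_one y
  have h6 := abs_le.1 h
  have h7 : ((⌊x⌋ - ⌊y⌋ : ℤ) : ℝ) < ((C:ℤ) + 1 : ℤ) + 1 := by push_cast; linarith
  have h8 : (-(((C:ℤ) + 1 : ℤ) : ℝ)) - 1 < ((⌊x⌋ - ⌊y⌋ : ℤ) : ℝ) := by push_cast; linarith
  have h9 : ⌊x⌋ - ⌊y⌋ < ((C:ℤ) + 1) + 1 := by exact_mod_cast h7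
  have h10 : -((C:ℤ) + 1) - 1 < ⌊x⌋ - ⌊y⌋ := by exact_mod_cast h8
  rw [abs_le]
  constructor <;> omega

section

variable {K : ℕ} (F : Flg K)

theorem Kpos (F : Flg K) : 1 ≤ K := by
  refine Nat.pos_of_ne_zero ?_
  rintro rfl
  obtain ⟨j, hj⟩ := (F.S.Ltop.eventually_gt_atTop 0).exists
  rw [F.L_eq j, zero_mul] at hj
  exact lt_irrefl _ hj

theorem fn_bl (s : ℕ) : Sys.Fn (NS.bl F s) (F.N 0) :=
  Eventually.of_forall fun i ω ω' _ _ e => by
    have e' : F.N 0 i ω = F.N 0 i ω' := e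
    show (_, _) = (_, _)
    rw [e']

theorem fn_pj (s h : ℕ) : Sys.Fn (pj F s h) (Sys.pr (F.N 0) (F.Y h)) :=
  Eventually.of_forall fun i ω ω' _ _ e => by
    simp only [pr_apply, Prod.mk.injEq] at e
    funext k
    unfold pj
    rw [e.1, e.2]

theorem tame_bl (s : ℕ) : Sys.Tame (NS.bl F s) := (tame_N F (Kpos F) (Nat.zero_le K)).mono (fn_bl F s)

theorem tame_Y {h : ℕ} (hh : h ≤ K) : Sys.Tame (F.Y h) := (tame_N F (Kpos F) hh).mono (F_YN F h)

theorem tame_pj (s : ℕ) {h : ℕ} (hh : h ≤ K) : Sys.Tame (pj F s h) :=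
  ((tame_N F (Kpos F) (Nat.zero_le K)).pr (tame_Y F hh)).mono (fn_pj F s h)

/-- the time block of level `a` is a digit of the ball -/
theorem fn_T_bl {a : ℕ} (ha : a ≤ K) : Sys.Fn (F.T a) (NS.bl F (2 * a)) :=
  Eventually.of_forall fun i ω ω' hω hω' e => by
    have h1 := (hg_of F (Nat.zero_le a) ha i ω hω).T
    have h2 := (hg_of F (Nat.zero_le a) ha i ω' hω').T
    have e1 : (F.N 0 i ω).T / 2 ^ (2 * a * F.n i) = (F.N 0 i ω').T / 2 ^ (2 * a * F.n i) := congrArg Prod.fst e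
    have e2 : 2 * ((a - 0) * F.n i) = 2 * a * F.n i := by rw [Nat.sub_zero]; ring
    show (F.N a i ω).T = (F.N a i ω').T
    rw [h1, h2, e2, e1]

theorem fn_bl_T {a : ℕ} (ha : a ≤ K) :
    Sys.Fn (S := F.S) (fun i ω => (F.N 0 i ω).T / 2 ^ (2 * a * F.n i)) (F.T a) :=
  Eventually.of_forall fun i ω ω' hω hω' e => by
    have h1 := (hg_of F (Nat.zero_le a) ha i ω hω).T
    have h2 := (hg_of F (Nat.zero_le a) ha i ω' hω').T
    have e1 : (F.N a i ω).T = (F.N a i ω').T := e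
    have e2 : 2 * ((a - 0) * F.n i) = 2 * a * F.n i := by rw [Nat.sub_zero]; ring
    show (F.N 0 i ω).T / 2 ^ (2 * a * F.n i) = (F.N 0 i ω').T / 2 ^ (2 * a * F.n i)
    rw [← e2, ← h1, ← h2, e1]

/-- position of the starting cell from the tube of level `b` -/
theorem pos0 {b : ℕ} (hb : b ≤ K) {i : ℕ} {ω : F.S.Ω i} (hω : 0 < (F.S.P i).w ω) (k : Fin 2) :
    |((F.N 0 i ω).o k : ℝ) - (2 ^ (b * F.n i) * ((F.N b i ω).o k : ℝ) +
      (((F.N 0 i ω).T : ℝ) - 2 ^ (2 * (b * F.n i)) * ((F.N b i ω).T : ℝ)) * F.s i b (F.N b i ω).τ k)| ≤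
      (F.C + 2) * K * 2 ^ (b * F.n i) := by
  have h := (hg_of F (Nat.zero_le b) hb i ω hω).pos k
  simpa using h

theorem CK0 : 0 ≤ (F.C + 2) * K := by
  have := Vale.Agent.P122.K931.C_nonneg F
  positivity

/-- the ball of radius `2 b` is known from the tube of level `b` -/
theorem z_bl_N {b : ℕ} (hb : b ≤ K) : F.S.hc (NS.bl F (2 * b)) (F.N b) = 0 := by
  have hK := Kpos F
  have t1 : Sys.Tame (S := F.S) (fun i ω => (F.N 0 i ω).T / 2 ^ (2 * b * F.n i)) :=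
    (tame_N F hK (Nat.zero_le K)).mono (Eventually.of_forall fun i ω ω' _ _ e => by
      have e' : F.N 0 i ω = F.N 0 i ω' := e
      show _ / _ = _ / _
      rw [e'])
  have t2 : Sys.Tame (S := F.S) (fun i ω (k : Fin 2) => (F.N 0 i ω).o k / 2 ^ (2 * b * F.n i)) :=
    (tame_N F hK (Nat.zero_le K)).mono (Eventually.of_forall fun i ω ω' _ _ e => by
      have e' : F.N 0 i ω = F.N 0 i ω' := e
      funext k
      show _ / _ = _ / _
      rw [e'])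
  refine Fi.hc_zero_pair t1 t2 ?_ ?_
  · exact hc_fn (ftr (fn_bl_T F hb) (F_TN F b))
  · set C' : ℝ := 2 * ((F.C + 2) * K) + 1 with hC'
    have hCK := CK0 F
    refine zero_vec (⌈C'⌉₊ + 1) _ _ ?_
    refine Eventually.of_forall fun i ω ω' hω hω' e k => ?_
    have e' : F.N b i ω' = F.N b i ω := e
    have p1 := pos0 F hb hω k
    have p2 := pos0 F hb hω' k
    rw [e'] at p2
    have hT : (F.N 0 i ω).T / 2 ^ (2 * b * F.n i) = (F.N 0 i ω').T / 2 ^ (2 * b * F.n i) := by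
      have h1 := (hg_of F (Nat.zero_le b) hb i ω hω).T
      have h2 := (hg_of F (Nat.zero_le b) hb i ω' hω').T
      have e2 : 2 * ((b - 0) * F.n i) = 2 * b * F.n i := by rw [Nat.sub_zero]; ring
      rw [← e2, ← h1, ← h2, e']
    have hT' : |((F.N 0 i ω').T : ℝ) - (F.N 0 i ω).T| ≤ 2 ^ (2 * b * F.n i) := by
      have := close_of_ediv (a := (F.N 0 i ω').T) (b := (F.N 0 i ω).T) (N := 2 ^ (2 * b * F.n i)) (by positivity)
        (by push_cast; exact hT.symm)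
      push_cast at this
      exact this
    have hs := (F.slp i).bd b (F.N b i ω).τ k hb (cap_of F hω b hb)
    have hpow : (2:ℝ) ^ (b * F.n i) ≤ 2 ^ (2 * b * F.n i) := by
      apply pow_le_pow_right₀ (by norm_num)
      nlinarith [Nat.zero_le (b * F.n i)]
    have h1 : |((F.N 0 i ω').o k : ℝ) - (F.N 0 i ω).o k| ≤ (⌈C'⌉₊ : ℝ) * ((2 ^ (2 * b * F.n i) : ℕ) : ℝ) := by
      push_cast
      have e5 : ((F.N 0 i ω').o k : ℝ) - (F.N 0 i ω).o k =
          (((F.N 0 i ω').o k : ℝ) - (2 ^ (b * F.n i) * ((F.N b i ω).o k : ℝ) +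
            (((F.N 0 i ω').T : ℝ) - 2 ^ (2 * (b * F.n i)) * ((F.N b i ω).T : ℝ)) * F.s i b (F.N b i ω).τ k)) +
          (((F.N 0 i ω').T : ℝ) - (F.N 0 i ω).T) * F.s i b (F.N b i ω).τ k +
          -(((F.N 0 i ω).o k : ℝ) - (2 ^ (b * F.n i) * ((F.N b i ω).o k : ℝ) +
            (((F.N 0 i ω).T : ℝ) - 2 ^ (2 * (b * F.n i)) * ((F.N b i ω).T : ℝ)) * F.s i b (F.N b i ω).τ k)) := by ring
      rw [e5]
      rw [← abs_neg] at p1
      refine (abs_add_three _ _ _).trans ?_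
      have h3 : |(((F.N 0 i ω').T : ℝ) - (F.N 0 i ω).T) * F.s i b (F.N b i ω).τ k| ≤ 2 ^ (2 * b * F.n i) := by
        rw [abs_mul]
        calc _ ≤ 2 ^ (2 * b * F.n i) * 1 := mul_le_mul hT' hs (abs_nonneg _) (by positivity)
          _ = _ := mul_one _
      have h4 : (F.C + 2) * K * (2:ℝ) ^ (b * F.n i) ≤ (F.C + 2) * K * 2 ^ (2 * b * F.n i) :=
        mul_le_mul_of_nonneg_left hpow hCK
      have h5 : C' * (2:ℝ) ^ (2 * b * F.n i) ≤ ⌈C'⌉₊ * 2 ^ (2 * b * F.n i) :=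
        mul_le_mul_of_nonneg_right (Nat.le_ceil _) (by positivity)
      have h6 : C' * (2:ℝ) ^ (2 * b * F.n i) = (F.C + 2) * K * 2 ^ (2 * b * F.n i) + 2 ^ (2 * b * F.n i) +
        (F.C + 2) * K * 2 ^ (2 * b * F.n i) := by rw [hC']; ring
      linarith
    have h2 := ediv_close (N := 2 ^ (2 * b * F.n i)) (C := ⌈C'⌉₊) (by positivity) h1
    push_cast at h2 ⊢
    exact h2

/-- in a ball of radius `s'` the tube of level `b` is contained in a tube of radius `s` of direction `Y (s' - s)` -/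
theorem z_pj {b s s' : ℕ} (h1 : b ≤ s) (h2 : s ≤ s') (h3 : s' ≤ b + s) (hb : b ≤ K) :
    F.S.hc (pj F s (s' - s)) (Sys.pr (F.N b) (NS.bl F s')) = 0 := by
  have hK := Kpos F
  have hCK := CK0 F
  have hhb : s' - s ≤ b := by omega
  set h := s' - s with hh
  set C' : ℝ := 3 * ((F.C + 2) * K) with hC'
  refine zero_vec (⌈C'⌉₊ + 1) _ _ ?_
  refine Eventually.of_forall fun i ω ω' hω hω' e k => ?_
  simp only [pr_apply, Prod.mk.injEq] at e
  obtain ⟨e1, e2⟩ := e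
  have hY : F.Y h i ω' = F.Y h i ω := by
    funext j
    have g1 := (hg_of F hhb hb i ω hω).cap j
    have g2 := (hg_of F hhb hb i ω' hω').cap j
    show (F.N h i ω').τ j = (F.N h i ω).τ j
    rw [g1, g2, e1]
  have p1 := pos0 F hb hω k
  have p2 := pos0 F hb hω' k
  rw [e1] at p2
  have hT : (F.N 0 i ω').T / 2 ^ (s' * F.n i) = (F.N 0 i ω).T / 2 ^ (s' * F.n i) := congrArg Prod.fst e2
  have hT' : |((F.N 0 i ω').T : ℝ) - (F.N 0 i ω).T| ≤ 2 ^ (s' * F.n i) := by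
    have := close_of_ediv (a := (F.N 0 i ω').T) (b := (F.N 0 i ω).T) (N := 2 ^ (s' * F.n i)) (by positivity)
      (by push_cast; exact hT)
    push_cast at this
    exact this
  have hs : |F.s i h (F.N h i ω).τ k - F.s i b (F.N b i ω).τ k| ≤ (F.C + 2) * K / 2 ^ (h * F.n i) :=
    (hg_of F hhb hb i ω hω).sl k
  unfold pj
  rw [hY]
  have hYe : F.Y h i ω = (F.N h i ω).τ := rfl
  rw [hYe]
  refine (floor_near' (C := ⌈C'⌉₊) ?_).trans (by push_cast; rfl)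
  rw [← sub_div, abs_div, abs_of_pos (by positivity : (0:ℝ) < 2 ^ (s * F.n i)), div_le_iff₀ (by positivity)]
  have hpow : (2:ℝ) ^ (b * F.n i) ≤ 2 ^ (s * F.n i) :=
    pow_le_pow_right₀ (by norm_num) (Nat.mul_le_mul_right _ h1)
  have hpow2 : (2:ℝ) ^ (s' * F.n i) = 2 ^ (s * F.n i) * 2 ^ (h * F.n i) := by
    rw [← pow_add, ← add_mul]
    congr 2
    omega
  have e5 : ((F.N 0 i ω').o k : ℝ) - ((F.N 0 i ω').T : ℝ) * F.s i h (F.N h i ω).τ k -
      (((F.N 0 i ω).o k : ℝ) - ((F.N 0 i ω).T : ℝ) * F.s i h (F.N h i ω).τ k) =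
      (((F.N 0 i ω').o k : ℝ) - (2 ^ (b * F.n i) * ((F.N b i ω).o k : ℝ) +
        (((F.N 0 i ω').T : ℝ) - 2 ^ (2 * (b * F.n i)) * ((F.N b i ω).T : ℝ)) * F.s i b (F.N b i ω).τ k)) +
      -((((F.N 0 i ω').T : ℝ) - (F.N 0 i ω).T) * (F.s i h (F.N h i ω).τ k - F.s i b (F.N b i ω).τ k)) +
      -(((F.N 0 i ω).o k : ℝ) - (2 ^ (b * F.n i) * ((F.N b i ω).o k : ℝ) +
        (((F.N 0 i ω).T : ℝ) - 2 ^ (2 * (b * F.n i)) * ((F.N b i ω).T : ℝ)) * F.s i b (F.N b i ω).τ k)) := by ring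
  rw [e5]
  rw [← abs_neg] at p1
  refine (abs_add_three _ _ _).trans ?_
  have h6 : |-((((F.N 0 i ω').T : ℝ) - (F.N 0 i ω).T) * (F.s i h (F.N h i ω).τ k - F.s i b (F.N b i ω).τ k))| ≤
      (F.C + 2) * K * 2 ^ (s * F.n i) := by
    rw [abs_neg, abs_mul]
    calc _ ≤ 2 ^ (s' * F.n i) * ((F.C + 2) * K / 2 ^ (h * F.n i)) :=
          mul_le_mul hT' hs (abs_nonneg _) (by positivity)
      _ = (F.C + 2) * K * 2 ^ (s * F.n i) := by
          rw [hpow2]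
          field_simp
  have h4 : (F.C + 2) * K * (2:ℝ) ^ (b * F.n i) ≤ (F.C + 2) * K * 2 ^ (s * F.n i) :=
    mul_le_mul_of_nonneg_left hpow hCK
  have h5 : C' * (2:ℝ) ^ (s * F.n i) ≤ ⌈C'⌉₊ * 2 ^ (s * F.n i) :=
    mul_le_mul_of_nonneg_right (Nat.le_ceil _) (by positivity)
  have h7 : C' * (2:ℝ) ^ (s * F.n i) = (F.C + 2) * K * 2 ^ (s * F.n i) + (F.C + 2) * K * 2 ^ (s * F.n i) +
    (F.C + 2) * K * 2 ^ (s * F.n i) := by rw [hC']; ring
  linarith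

/-- (I2') -/
theorem i2' {b s s' : ℕ} (h1 : b ≤ s) (h2 : s ≤ s') (h3 : s' ≤ b + s) (hb : b ≤ K) :
    F.S.hc (NS.bl F s) (Sys.pr (F.N b) (NS.bl F s')) ≤
      F.S.hc (NS.bl F s) (Sys.pr (NS.bl F s') (Sys.pr (F.Y (s' - s)) (pj F s (s' - s)))) := by
  have hK := Kpos F
  have hh : s' - s ≤ K := by omega
  have tb := tame_bl F s
  have tb' := tame_bl F s'
  have tY := tame_Y F hh
  have tp := tame_pj F s hh
  have tN := tame_N F hK hb
  have z0 : F.S.hc (NS.bl F s') (Sys.pr (F.N b) (NS.bl F s')) = 0 := hc_fn (fsnd _ _)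
  have z1 : F.S.hc (F.Y (s' - s)) (Sys.pr (F.N b) (NS.bl F s')) = 0 := by
    refine hc_fn ?_
    have h4 : s' - s ≤ b := by omega
    refine ftr (Eventually.of_forall fun i ω ω' hω hω' e => ?_) (ffst _ _)
    have g1 := (hg_of F h4 hb i ω hω).cap
    have g2 := (hg_of F h4 hb i ω' hω').cap
    have e' : F.N b i ω = F.N b i ω' := e
    funext j
    show (F.N (s' - s) i ω).τ j = (F.N (s' - s) i ω').τ j
    rw [g1, g2, e']
  have z2 := z_pj F h1 h2 h3 hb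
  have z3 := Fi.hc_zero_pair tb' (tY.pr tp) z0 (Fi.hc_zero_pair tY tp z1 z2)
  rw [← hc_cond_zero tb (tb'.pr (tY.pr tp)) z3]
  exact hc_mono_right tb (ffst _ _)

/-! ### entropies of the times -/

variable {F} {H J th : ℕ → ℝ}

theorem tc_nonneg (F : Flg K) {c : ℕ} (hc : c < K) : 0 ≤ tc F c :=
  hc_nonneg (tame_T F (Kpos F) hc.le) _

theorem tc_le (h : Cts F.S K F.N F.Y F.T F.sg H J th) {c : ℕ} (hc : c < K) : tc F c ≤ 2 / K :=
  (hc_mono_right (tame_T F (Kpos F) hc.le) (F_TN F (c + 1))).trans (h.hT c hc)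

/-- `T c` is independent of `N b` given `N (c + 1)` -/
theorem tc_cond (h : Cts F.S K F.N F.Y F.T F.sg H J th) {c b : ℕ} (hcb : c + 1 ≤ b) (hb : b ≤ K) :
    tc F c ≤ F.S.hc (F.T c) (Sys.pr (F.N b) (F.N (c + 1))) := by
  have hc : c < K := by omega
  have t0 := h.tre.tN 0 (Nat.zero_le _)
  have tT := h.tre.tT hc.le
  have m1 := h.mi_N hcb hb
  have fT : Sys.Fn (F.T c) (F.N 0) := ftr (fn_T_bl F hc.le) (fn_bl F (2 * c))
  -- `hc(x | Z) = hc(T | Z) + hc(x | T, Z)`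
  have key : ∀ {γ : Type} (Z : F.S.RV γ), F.S.hc (F.N 0) Z = F.S.hc (F.T c) Z + F.S.hc (F.N 0) (Sys.pr (F.T c) Z) := by
    intro γ Z
    rw [← hc_pair tT t0 Z]
    exact hc_congr (ftr (fsnd _ _) (ffst _ _)) (fpr (ftr fT (ffst _ _)) (ffst _ _)) (frf _) (frf _)
  have k1 := key (F.N (c + 1))
  have k2 := key (Sys.pr (F.N b) (F.N (c + 1)))
  have k3 : F.S.hc (F.N 0) (Sys.pr (F.T c) (Sys.pr (F.N b) (F.N (c + 1)))) ≤
      F.S.hc (F.N 0) (Sys.pr (F.T c) (F.N (c + 1))) :=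
    hc_mono_right t0 (fpr (ffst _ _) (ftr (fsnd _ _) (fsnd _ _)))
  unfold tc
  linarith

theorem tc_sum (h : Cts F.S K F.N F.Y F.T F.sg H J th) {a b : ℕ} (hab : a ≤ b) (hb : b ≤ K) :
    ∑ c ∈ Finset.Ico a b, tc F c ≤ F.S.hc (F.T a) (F.N b) := by
  induction hd : b - a generalizing a with
  | zero =>
    have : a = b := by omega
    subst this
    rw [Ico_self, sum_empty]
    exact hc_nonneg (h.tre.tT hb) _
  | succ d ih =>
    have h1 := ih (a := a + 1) (by omega) (by omega)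
    have hlt : a < b := by omega
    rw [Finset.sum_eq_sum_Ico_succ_bot hlt]
    have ta := h.tre.tT (c := a) (by omega)
    have ta' := h.tre.tT (c := a + 1) (by omega)
    have e1 : F.S.hc (F.T a) (F.N b) = F.S.hc (F.T (a + 1)) (F.N b) + F.S.hc (F.T a) (Sys.pr (F.T (a + 1)) (F.N b)) := by
      rw [← hc_pair ta' ta (F.N b)]
      refine hc_congr (ftr (fsnd _ _) (ffst _ _)) ?_ (frf _) (frf _)
      exact fpr (ftr (h.tre.TT a (by omega)) (ffst _ _)) (ffst _ _)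
    have e2 := tc_cond h (c := a) (by omega) hb
    have e3 : F.S.hc (F.T a) (Sys.pr (F.N b) (F.N (a + 1))) ≤ F.S.hc (F.T a) (Sys.pr (F.T (a + 1)) (F.N b)) :=
      hc_mono_right ta (fpr (ftr (h.tre.TN (a + 1) (by omega)) (fsnd _ _)) (ffst _ _))
    linarith

/-- (I2) -/
theorem i2 (h : Cts F.S K F.N F.Y F.T F.sg H J th) {a b : ℕ} (hab : a ≤ b) (hb : b ≤ K) :
    ∑ c ∈ Finset.Ico a b, tc F c ≤ F.S.hc (NS.bl F (2 * a)) (Sys.pr (F.N b) (NS.bl F (2 * b))) := by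
  refine (tc_sum h hab hb).trans ?_
  have ta := h.tre.tT (c := a) (by omega)
  have tb := tame_bl F (2 * b)
  have ta2 := tame_bl F (2 * a)
  have z := z_bl_N F hb
  rw [← hc_cond_zero ta tb z]
  have e1 : F.S.hc (F.T a) (Sys.pr (NS.bl F (2 * b)) (F.N b)) ≤ F.S.hc (NS.bl F (2 * a)) (Sys.pr (NS.bl F (2 * b)) (F.N b)) :=
    hc_mono_left ta2 ta (ftr (fn_T_bl F (by omega)) (ffst _ _))
  refine e1.trans (le_of_eq ?_)
  exact hc_congr (ffst _ _) (ffst _ _) (fpr (fsnd _ _) (ffst _ _)) (fpr (fsnd _ _) (ffst _ _))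

end

end Vale.Agent.P076.NS
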