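import Vale.Agent.P122.AN.Defs
import Vale.Agent.P122.E.RG

/-!
# P076 / NS : the half of the proof which may lose `R ^ ε` : statements (helper228)

`D = 2 ^ n`, `K` levels, `R = D ^ (2 K)`, `L = D ^ K`.

* `Par` : finest pieces `g θ` of a function with frequencies in the `R⁻¹`-neighbourhood of the paraboloid (`P122.AN.Dat`).
* `StDEC` : planar `ℓ² L⁶` decoupling, caps of side `2 ^ (-n)`, weights at scale `2 ^ (2 n)`.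
* `StDZ`, `StKP` : the fractal `L²` estimate and its gain for small energy, atoms = cubes of side `2 ^ (2 n)`.
* `StTRIe`, `StBG` : the broad estimates, on the multiscale amplitudes.
* `TGH` : what the regular system of flags gives to the window lemma.
-/

set_option autoImplicit false

open MeasureTheory Complex Set Vale.Agent.P122.C2 Vale.Agent.P122.AN
open scoped ENNReal NNReal FourierTransform

namespace Vale.Agent.P076.NS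

/-! ### the class of functions -/

/-- the paraboloid `ξ₂ = - |ξ'|² / 2`, slopes `v ξ' = ξ'` -/
noncomputable def hP (ξ : Fin 2 → ℝ) : ℝ := -(ξ 0 ^ 2 + ξ 1 ^ 2) / 2

/-- the pieces of the finest level of a function near the paraboloid -/
def Par (C0 : ℝ) (K n : ℕ) (g : Z2 → E3 → ℂ) : Prop := Dat C0 K n Set.univ hP id g

/-- normalised mass `R⁻¹ ∑ ∫ |F_θ|²` (`= ‖f‖²`) -/
noncomputable def ms (K n : ℕ) (g : Z2 → E3 → ℂ) : ℝ≥0∞ :=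
  ENNReal.ofReal (((2:ℝ) ^ (2 * K * n))⁻¹) * ∑ θ ∈ desc K n 0 0, ∫⁻ z, ‖𝓕⁻ (g θ) z‖ₑ ^ 2

/-! ### decoupling -/

/-- the caps of `G` (level `1`) are in a strip of width `2 ^ (-n)` -/
def Strip (C0 : ℝ) (n : ℕ) (G : Finset Z2) : Prop :=
  ∃ θ r : ℝ, ∀ τ ∈ G, |fn θ (slp n 1 τ) - r| ≤ C0 / 2 ^ n

/-- admissible boxes: widths at least `2 ^ (2 n)`, dual box in a ball of radius `O(2 ^ (-2 n))` around all tangent directions;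
this class is stable under parabolic rescaling -/
def Wok (C0 : ℝ) (n : ℕ) (ρ1 ρ2 ρ3 : ℝ) (s : Fin 2 → ℝ) : Prop :=
  (2:ℝ) ^ (2 * n) ≤ ρ1 ∧ (2:ℝ) ^ (2 * n) ≤ ρ2 ∧ (2:ℝ) ^ (2 * n) ≤ ρ3 ∧
    ∀ v : Fin 2 → ℝ, (∀ k, 0 ≤ v k ∧ v k ≤ 1) → ∀ k, |s k - v k| * 2 ^ (2 * n) ≤ C0 * min ρ1 ρ2

/-- [DEC] planar decoupling -/
def StDEC : Prop := ∀ (ε : ℝ) (M : ℕ) (C0 : ℝ), 0 < ε → 4 ≤ M → 1 ≤ C0 → ∃ C : ℝ, 0 ≤ C ∧
  ∀ (n : ℕ) (g : Z2 → E3 → ℂ) (G : Finset Z2) (θ ρ1 ρ2 ρ3 : ℝ) (s : Fin 2 → ℝ) (z0 : E3),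
    Par C0 1 n g → Strip C0 n G → Wok C0 n ρ1 ρ2 ρ3 s →
    (∫⁻ z, ‖∑ τ ∈ G, 𝓕⁻ (g τ) z‖ₑ ^ 6 * wg M θ ρ1 ρ2 ρ3 s (z - z0)) ^ (1 / 3 : ℝ) ≤
      ENNReal.ofReal (C * 2 ^ (ε * n)) *
        ∑ τ ∈ G, (∫⁻ z, ‖𝓕⁻ (g τ) z‖ₑ ^ 6 * wg M θ ρ1 ρ2 ρ3 s (z - z0)) ^ (1 / 3 : ℝ)

/-! ### cubes of side `2 ^ (2 n)` -/

/-- centre of the cube -/
noncomputable def cB (n : ℕ) (B : Fin 3 → ℤ) : E3 :=
  !₂[(2:ℝ) ^ (2 * n) * B 0, (2:ℝ) ^ (2 * n) * B 1, (2:ℝ) ^ (2 * n) * B 2]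

/-- weight of the cube -/
noncomputable def wB (M n : ℕ) (B : Fin 3 → ℤ) (z : E3) : ℝ≥0∞ :=
  wg M 0 (2 ^ (2 * n)) (2 ^ (2 * n)) (2 ^ (2 * n)) 0 (z - cB n B)

/-- mean of `|f|⁶` on the cube -/
noncomputable def b6 (M n : ℕ) (B : Fin 3 → ℤ) (f : E3 → ℂ) : ℝ≥0∞ :=
  ENNReal.ofReal (((2:ℝ) ^ (6 * n))⁻¹) * ∫⁻ z, ‖f z‖ₑ ^ 6 * wB M n B z

/-- sum of the pieces of the caps of level `1` in `G` -/
noncomputable def pG (K n : ℕ) (g : Z2 → E3 → ℂ) (G : Finset Z2) (z : E3) : ℂ := ∑ τ ∈ G, pie K n g 1 τ z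

/-- energy of the finest pieces of the caps `τ ∈ G` on their tubes `L × L × L²` through the cube -/
noncomputable def uB (M K n : ℕ) (g : Z2 → E3 → ℂ) (G : Finset Z2) (B : Fin 3 → ℤ) : ℝ≥0∞ :=
  ∑ τ ∈ G, ∑ θ ∈ desc K n 1 τ, ENNReal.ofReal (((2:ℝ) ^ (4 * K * n))⁻¹) *
    ∫⁻ z, ‖𝓕⁻ (g θ) z‖ₑ ^ 2 * wg M 0 (2 ^ (K * n)) (2 ^ (K * n)) (2 ^ (2 * K * n)) (slp n K θ) (z - cB n B)

/-- dimension: at most `γ r²` cubes of `Y` in a ball of radius `r`, `D² ≤ r ≤ R` -/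
def Dim2 (K n : ℕ) (Y : Finset (Fin 3 → ℤ)) (γ : ℝ) : Prop :=
  ∀ (r : ℝ) (p : E3), (2:ℝ) ^ (2 * n) ≤ r → r ≤ 2 ^ (2 * K * n) →
    ((Y.filter fun B => dist (cB n B) p ≤ r).card : ℝ) ≤ γ * r ^ 2

/-- [DZ] the fractal `L²` estimate -/
def StDZ : Prop := ∀ ε : ℝ, 0 < ε → ∃ K0 : ℕ, ∀ K : ℕ, K0 ≤ K → ∃ M0 : ℕ, ∀ M : ℕ, M0 ≤ M → ∀ C0 : ℝ, 1 ≤ C0 → ∃ C : ℝ, 0 ≤ C ∧
  ∀ (n : ℕ) (g : Z2 → E3 → ℂ) (Y : Finset (Fin 3 → ℤ)) (γ β : ℝ), Par C0 K n g → 0 < γ → Dim2 K n Y γ → 0 ≤ β →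
    (∀ B ∈ Y, ENNReal.ofReal (β ^ 6) ≤ b6 M n B (pie K n g 0 0)) →
    ENNReal.ofReal (β ^ 2 * Y.card) ≤
      ENNReal.ofReal (C * 2 ^ (ε * (K * n)) * γ ^ (2 / 3 : ℝ) * 2 ^ (4 / 3 * (K * n : ℝ))) * ms K n g

/-- [KP] the gain for small energy: `G B` = caps of level `1` used at the cube `B` -/
def StKP : Prop := ∃ c1 : ℝ, 0 < c1 ∧ ∀ ε : ℝ, 0 < ε → ∃ K0 : ℕ, ∀ K : ℕ, K0 ≤ K → ∃ M0 : ℕ, ∀ M : ℕ, M0 ≤ M → ∀ C0 : ℝ, 1 ≤ C0 →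
  ∃ C : ℝ, 0 ≤ C ∧ ∀ (n : ℕ) (g : Z2 → E3 → ℂ) (Y : Finset (Fin 3 → ℤ)) (G : (Fin 3 → ℤ) → Finset Z2) (γ β b : ℝ),
    Par C0 K n g → 0 < γ → Dim2 K n Y γ → 0 ≤ β → 0 < b → b ≤ 1 →
    (∀ B ∈ Y, G B ⊆ kids n 0 ∧ ENNReal.ofReal (β ^ 6) ≤ b6 M n B (pG K n g (G B)) ∧
      uB M K n g (G B) B ≤ ENNReal.ofReal (b * (β ^ 2 * (γ / 2 ^ (K * n)) ^ (1 / 3 : ℝ)))) →
    ENNReal.ofReal (β ^ 2 * Y.card) ≤
      ENNReal.ofReal (C * 2 ^ (ε * (K * n)) * b ^ c1 * γ ^ (2 / 3 : ℝ) * 2 ^ (4 / 3 * (K * n : ℝ))) * ms K n g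

/-! ### the broad estimates, on amplitudes -/

open Vale.Agent.P122.H610 in
/-- starting cells with a nonempty set `G x` of caps of level `j` of amplitude at least `β 2 ^ (- A n)`, whose ancestors of
level `1` are not concentrated in strips of width `2 ^ (-n)` -/
structure Brd {C : ℝ} {n K : ℕ} (F : Amp C n K) (j : ℕ) (A c1 β : ℝ) (X : Finset Nd) (G : Nd → Finset Z2) : Prop where
  root : ∀ x ∈ X, x.τ = 0 ∧ 0 ≤ x.T ∧ x.T < 2 ^ (2 * K * n)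
  ne : ∀ x ∈ X, (G x).Nonempty
  cap : ∀ x ∈ X, ∀ y ∈ G x, Cap n j y
  amp : ∀ x ∈ X, ∀ y ∈ G x, β ≤ 2 ^ (A * n) * F.a j (pth F.s n j x y)
  spr : ∀ x ∈ X, ∀ θ r : ℝ, (((G x).filter fun y => |fn θ (F.s 1 (an n (j - 1) y)) - r| ≤ 8 * C / 2 ^ n).card : ℝ) ≤
    2 ^ (-(c1 * n)) * (G x).card

/-- [TRI] broad estimate without gain, loss `2 ^ (ε K n)` -/
def StTRIe : Prop := ∀ ε : ℝ, 0 < ε → ∀ (j : ℕ) (A : ℝ), 1 ≤ j → ∃ K0 : ℕ, ∀ K : ℕ, K0 ≤ K → ∀ c1 C : ℝ, 0 < c1 → 1 ≤ C →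
  ∃ C' : ℝ, 0 ≤ C' ∧
  ∀ (n : ℕ) (F : Amp C n K) (β Q : ℝ) (X : Finset Nd) (G : Nd → Finset Z2), 0 < β → Brd F j A c1 β X G →
    (∀ U : Finset Nd, ∑ S ∈ U, F.a K S ^ 2 ≤ Q) →
    β ^ 3 * X.card ≤ C' * 2 ^ (ε * (K * n)) * (2 ^ (2 * K * n) * Q) ^ (3 / 2 : ℝ)

/-- [BG] broad estimate with gain for two-dimensional sets -/
def StBG : Prop := ∃ κ c0 : ℝ, 0 < κ ∧ 0 < c0 ∧ ∀ (j : ℕ) (A : ℝ), 1 ≤ j → ∃ K0 : ℕ, ∀ K : ℕ, K0 ≤ K →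
  ∀ c1 C : ℝ, 0 < c1 → 1 ≤ C → ∃ C' : ℝ, 0 ≤ C' ∧
  ∀ (n : ℕ) (F : Amp C n K) (β Q : ℝ) (X : Finset Nd) (G : Nd → Finset Z2), 0 < β → Brd F j A c1 β X G →
    (∀ U : Finset Nd, ∑ S ∈ U, F.a K S ^ 2 ≤ Q) →
    (∀ (r : ℕ) (x0 : Nd), r ≤ 2 * K * n → ((X.filter fun x => |x.T - x0.T| ≤ 2 ^ r ∧ ∀ k, |x.o k - x0.o k| ≤ 2 ^ r).card : ℝ) ≤
      2 ^ (c0 * (K * n)) * 2 ^ (2 * r)) →
    β ^ 2 * X.card ≤ C' * 2 ^ (-(κ * (K * n))) * 2 ^ (4 / 3 * (K * n : ℝ)) * (2 ^ (2 * K * n) * Q)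

end Vale.Agent.P076.NS

/-! ### what the flags give -/

namespace Vale.Agent.P076.NS

open Filter Topology Vale.Agent.P127 Vale.Agent.P127.Stk Vale.Agent.P127.U Vale.Agent.P127.U.Sys Vale.Agent.P122.C2
  Vale.Agent.P122.E

variable {K : ℕ} (F : Flg K)

/-- the ball of radius `2 ^ (s n)` of the starting cell -/
def bl (s : ℕ) : F.S.RV (ℤ × Z2) := fun i ω =>
  ((F.N 0 i ω).T / 2 ^ (s * F.n i), fun k => (F.N 0 i ω).o k / 2 ^ (s * F.n i))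

/-- projection of the starting cell along the direction `Y h`, at the scale `2 ^ (s n)` -/
noncomputable def pj (s h : ℕ) : F.S.RV Z2 := fun i ω k =>
  ⌊(((F.N 0 i ω).o k : ℝ) - ((F.N 0 i ω).T : ℝ) * F.s i h (F.Y h i ω) k) / 2 ^ (s * F.n i)⌋

/-- time digits of the level `c` on the tube of the level `c + 1` -/
noncomputable def tc (c : ℕ) : ℝ := F.S.hc (F.T c) (F.N (c + 1))

open Classical in
/-- the part of the output of a regular system of flags of a broad family which holds without any hypothesis on the mass -/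
structure TG0 (c1 : ℝ) : Prop where
  t0 : ∀ c, c < K → 0 ≤ tc F c
  t1 : ∀ c, c < K → tc F c ≤ 2 / K
  /-- (I2) the time digits of the levels `a, …, b - 1` are digits of the cell on the tube of level `b` -/
  I2 : ∀ a b, a ≤ b → b ≤ K →
    ∑ c ∈ Finset.Ico a b, tc F c ≤ F.S.hc (bl F (2 * a)) (Sys.pr (F.N b) (bl F (2 * b)))
  /-- (I2') in a ball of radius `s'` the tube of level `b` is contained in a tube of radius `s`, direction `Y (s' - s)` -/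
  I2' : ∀ b s s', b ≤ s → s ≤ s' → s' ≤ 2 * b → s' ≤ b + s → b ≤ K →
    F.S.hc (bl F s) (Sys.pr (F.N b) (bl F s')) ≤
      F.S.hc (bl F s) (Sys.pr (bl F s') (Sys.pr (F.Y (s' - s)) (pj F s (s' - s))))
  /-- the directions of level `1` at a cell are not concentrated in strips -/
  spr : ∀ ε : ℝ, 0 < ε → ∀ᶠ i in (uf : Filter ℕ), ∀ ω0, 0 < (F.S.P i).w ω0 → ∀ θ r : ℝ,
    (F.S.P i).ex (fun ω => if F.x i ω = F.x i ω0 ∧ |fn θ (F.s i 1 (F.Y 1 i ω)) - r| ≤ F.C / 2 ^ F.n i then 1 else 0) ≤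
      (2:ℝ) ^ ((ε - c1 / K) * F.S.L i) * (F.S.P i).pr (F.x i) (F.x i ω0)

/-- the output of a near-critical regular system of flags of a broad family (error `κ`), for the window lemma -/
structure TGH (c1 κ : ℝ) : Prop extends TG0 F c1 where
  /-- (I4) near-criticality -/
  I4 : 4 / 3 - κ ≤ ∑ c ∈ Finset.range K, tc F c
  /-- two-dimensional -/
  gr : ∀ s, s ≤ 2 * K → F.S.hc F.x (bl F s) ≤ 2 * s / K + κ
  /-- (I5) number of directions -/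
  I5 : ∀ d, d ≤ K → 2 * d / K - F.S.hc F.x (F.N d) + ∑ c ∈ Finset.range d, tc F c - κ ≤ F.S.hc (F.Y d) F.x

/-- [LW] Loomis-Whitney for three copies of the family: the trilinear inequality -/
def StLWe : Prop := ∀ ε : ℝ, 0 < ε → ∃ K0 : ℕ, ∀ c1 : ℝ, 0 < c1 → ∀ (K : ℕ) (F : Flg K), K0 ≤ K → TG0 F c1 →
  3 * ∑ c ∈ Finset.range K, tc F c ≤ F.S.h F.x + ε

/-- [TG] window lemma and profile: there is no near-critical structure -/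
def StTG : Prop := ∃ (κ : ℝ) (K0 : ℕ), 0 < κ ∧ ∀ c1 : ℝ, 0 < c1 → ∀ (K : ℕ) (F : Flg K), K0 ≤ K → ¬ TGH F c1 κ

end Vale.Agent.P076.NS
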