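import Vale.Agent.P076.BG.Defs
import Vale.Agent.P076.H803.Reg

/-!
# P076 / NS : flat systems of flags, statements (helper228)
-/

set_option autoImplicit false

namespace Vale.Agent.P076.NS

open Filter Topology Finset Vale.Agent.P127 Vale.Agent.P127.Stk Vale.Agent.P127.U Vale.Agent.P127.U.Sys Vale.Agent.P122.C2
  Vale.Agent.P122.E Vale.Agent.P076.BG Vale.Agent.P076.H803

/-- all the flat fields of `BG.TGX` and the lower bound for the probability of the cells -/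
structure Flat {K : ℕ} (F : Flg K) : Prop where
  cb : ∀ s s', s ≤ s' → s' ≤ 2 * K → Cnt F.S (NS.bl F s) (NS.bl F s') (F.S.hc (NS.bl F s) (NS.bl F s'))
  cp : ∀ s w, w ≤ s → w ≤ K → s + w ≤ 2 * K → Cnt F.S (pj F s w) (Sys.pr (NS.bl F (s + w)) (F.Y w))
    (F.S.hc (pj F s w) (Sys.pr (NS.bl F (s + w)) (F.Y w)))
  cd : ∀ d s, d ≤ K → s ≤ 2 * K → Cnt F.S (F.Y d) (NS.bl F s) (F.S.hc (F.Y d) (NS.bl F s))
  ub : ∀ s, s ≤ 2 * K → Unf F.S (NS.bl F s) (F.S.h (NS.bl F s))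
  ud : ∀ d s, d ≤ K → s ≤ 2 * K → Unf F.S (Sys.pr (NS.bl F s) (F.Y d)) (F.S.h (Sys.pr (NS.bl F s) (F.Y d)))
  N1 : ∀ b, b ≤ K → Cnt F.S (F.N b) (one (S := F.S)) (F.S.h (F.N b))
  UT : ∀ c b, c ≤ b → b ≤ K → Unf F.S (Sys.pr (F.N b) (F.T c)) (F.S.h (Sys.pr (F.N b) (F.T c)))
  Lx : Low F.S F.x (F.S.h F.x)

/-- every system of flags has a flat dense law (from `H803.exists_reg`) -/
def StFlat : Prop := ∀ (K : ℕ) (F : Flg K), ∃ (S' : Sys) (d : Dns S' F.S)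
  (hs : ∀ i ω, 0 < (S'.P i).w ω → 0 < (F.S.P i).w (d.π i ω)), Flat (F.res d hs)

end Vale.Agent.P076.NS
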