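import Vale.Agent.P076.NS.Tg0

/-!
# P076 / NS : the growth of the cells (helper228)
-/

set_option autoImplicit false

namespace Vale.Agent.P076.NS

open Filter Topology Finset Vale.Agent.P127 Vale.Agent.P127.Stk Vale.Agent.P127.U Vale.Agent.P127.U.Sys Vale.Agent.P122.C2
  Vale.Agent.P122.E Vale.Agent.P122.H518 Vale.Agent.P122.H610 Vale.Agent.P122.H474 Vale.Agent.P122.K931

section

variable {K : ℕ} (F : Flg K)

/-- all cells are in boundedly many balls of radius `2 K` -/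
theorem h_bl_top : F.S.h (NS.bl F (2 * K)) = 0 := by
  have hK := Kpos F
  have t1 : Sys.Tame (S := F.S) (fun i ω => (F.N 0 i ω).T / 2 ^ (2 * K * F.n i)) :=
    (tame_N F hK (Nat.zero_le K)).mono (Eventually.of_forall fun i ω ω' _ _ e => by
      have e' : F.N 0 i ω = F.N 0 i ω' := e
      show _ / _ = _ / _
      rw [e'])
  have t2 : Sys.Tame (S := F.S) (fun i ω (k : Fin 2) => (F.N 0 i ω).o k / 2 ^ (2 * K * F.n i)) :=
    (tame_N F hK (Nat.zero_le K)).mono (Eventually.of_forall fun i ω ω' _ _ e => by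
      have e' : F.N 0 i ω = F.N 0 i ω' := e
      funext k
      show _ / _ = _ / _
      rw [e'])
  refine Fi.hc_zero_pair t1 t2 ?_ ?_
  · refine hc_fn (Eventually.of_forall fun i ω ω' hω hω' _ => ?_)
    have h1 := F.root i ω hω
    have h2 := F.root i ω' hω'
    show (F.N 0 i ω).T / 2 ^ (2 * K * F.n i) = (F.N 0 i ω').T / 2 ^ (2 * K * F.n i)
    rw [Int.ediv_eq_zero_of_lt h1.2.1 h1.2.2, Int.ediv_eq_zero_of_lt h2.2.1 h2.2.2]
  · have hCK := CK0 F
    have hC0 := C_nonneg F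
    set M : ℝ := F.C + 1 + (F.C + 2) * K with hM
    have hM0 : 0 ≤ M := by positivity
    have hb : ∀ i ω, 0 < (F.S.P i).w ω → ∀ k, |((F.N 0 i ω).o k : ℝ)| ≤ M * 2 ^ (2 * K * F.n i) := by
      intro i ω hω k
      have p1 := pos0 F le_rfl hω k
      have h1 := F.root i ω hω
      have hT : (F.N K i ω).T = 0 := by
        rw [(hg_of F (Nat.zero_le K) le_rfl i ω hω).T, show 2 * ((K - 0) * F.n i) = 2 * K * F.n i by rw [Nat.sub_zero]; ring]
        exact Int.ediv_eq_zero_of_lt h1.2.1 h1.2.2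
      rw [hT] at p1
      have hs := (F.slp i).bd K (F.N K i ω).τ k le_rfl (cap_of F hω K le_rfl)
      have ht := F.top i ω hω k
      have hT1 : (0:ℝ) ≤ (F.N 0 i ω).T := by exact_mod_cast h1.2.1
      have hT2 : ((F.N 0 i ω).T : ℝ) ≤ 2 ^ (2 * K * F.n i) := by exact_mod_cast h1.2.2.le
      have hTs : |((F.N 0 i ω).T : ℝ) * F.s i K (F.N K i ω).τ k| ≤ 2 ^ (2 * K * F.n i) := by
        rw [abs_mul, abs_of_nonneg hT1]
        calc _ ≤ 2 ^ (2 * K * F.n i) * 1 := mul_le_mul hT2 hs (abs_nonneg _) (by positivity)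
          _ = _ := mul_one _
      have hpp : (2:ℝ) ^ (K * F.n i) * 2 ^ (K * F.n i) = 2 ^ (2 * K * F.n i) := by
        rw [← pow_add]
        congr 1
        ring
      have hto : |(2:ℝ) ^ (K * F.n i) * ((F.N K i ω).o k : ℝ)| ≤ F.C * 2 ^ (2 * K * F.n i) := by
        rw [abs_mul, abs_of_nonneg (by positivity : (0:ℝ) ≤ 2 ^ (K * F.n i)), ← hpp]
        calc _ ≤ (2:ℝ) ^ (K * F.n i) * (F.C * 2 ^ (K * F.n i)) := mul_le_mul_of_nonneg_left ht (by positivity)
          _ = _ := by ring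
      have hpow : (2:ℝ) ^ (K * F.n i) ≤ 2 ^ (2 * K * F.n i) := by
        apply pow_le_pow_right₀ (by norm_num)
        nlinarith [Nat.zero_le (K * F.n i)]
      have h4 : (F.C + 2) * K * (2:ℝ) ^ (K * F.n i) ≤ (F.C + 2) * K * 2 ^ (2 * K * F.n i) :=
        mul_le_mul_of_nonneg_left hpow hCK
      have p1' : |((F.N 0 i ω).o k : ℝ) - (2 ^ (K * F.n i) * ((F.N K i ω).o k : ℝ) +
          ((F.N 0 i ω).T : ℝ) * F.s i K (F.N K i ω).τ k)| ≤ (F.C + 2) * K * 2 ^ (K * F.n i) := by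
        have e : ((F.N 0 i ω).T : ℝ) - 2 ^ (2 * (K * F.n i)) * ((0 : ℤ) : ℝ) = (F.N 0 i ω).T := by simp
        rwa [e] at p1
      have e5 : ((F.N 0 i ω).o k : ℝ) = (((F.N 0 i ω).o k : ℝ) - (2 ^ (K * F.n i) * ((F.N K i ω).o k : ℝ) +
          ((F.N 0 i ω).T : ℝ) * F.s i K (F.N K i ω).τ k)) + 2 ^ (K * F.n i) * ((F.N K i ω).o k : ℝ) +
          ((F.N 0 i ω).T : ℝ) * F.s i K (F.N K i ω).τ k := by ring
      rw [e5]
      refine (abs_add_three _ _ _).trans ?_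
      have e6 : M * (2:ℝ) ^ (2 * K * F.n i) = (F.C + 2) * K * 2 ^ (2 * K * F.n i) + F.C * 2 ^ (2 * K * F.n i) +
        2 ^ (2 * K * F.n i) := by rw [hM]; ring
      linarith
    refine zero_vec (⌈2 * M⌉₊ + 1) _ _ ?_
    refine Eventually.of_forall fun i ω ω' hω hω' _ k => ?_
    have h1 : |((F.N 0 i ω').o k : ℝ) - (F.N 0 i ω).o k| ≤ (⌈2 * M⌉₊ : ℝ) * ((2 ^ (2 * K * F.n i) : ℕ) : ℝ) := by
      push_cast
      have h2 := hb i ω hω k
      have h3 := hb i ω' hω' k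
      have h5 : 2 * M * (2:ℝ) ^ (2 * K * F.n i) ≤ ⌈2 * M⌉₊ * 2 ^ (2 * K * F.n i) :=
        mul_le_mul_of_nonneg_right (Nat.le_ceil _) (by positivity)
      have h6 := abs_sub ((F.N 0 i ω').o k : ℝ) ((F.N 0 i ω).o k : ℝ)
      linarith
    have h2 := ediv_close (N := 2 ^ (2 * K * F.n i)) (C := ⌈2 * M⌉₊) (by positivity) h1
    push_cast at h2 ⊢
    exact h2

/-- the entropy of the cells -/
theorem h_x_le {r : ℝ} (h : F.S.hc F.x (NS.bl F (2 * K)) ≤ r) : F.S.h F.x ≤ r := by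
  have h1 := hc_le_add (tame_N F (Kpos F) (Nat.zero_le K)) (tame_bl F (2 * K)) (one (S := F.S))
  have h2 : F.S.hc (F.N 0) (Sys.pr (NS.bl F (2 * K)) (one (S := F.S))) = F.S.hc F.x (NS.bl F (2 * K)) :=
    hc_congr (ffst _ _) (ffst _ _) (fpr (frf _) (fone _)) (ffst _ _)
  have h3 := h_bl_top F
  have h4 : F.S.hc (NS.bl F (2 * K)) (one (S := F.S)) = F.S.h (NS.bl F (2 * K)) := rfl
  have h5 : F.S.h F.x = F.S.hc (F.N 0) (one (S := F.S)) := rfl
  rw [h5]
  linarith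

end

/-- the growth of the cells, from the ball condition -/
theorem gr_cnt {K j : ℕ} {A c1 C : ℝ} {D : ℕ → Dt K j A c1 C} {Z : CS K} {W : VS Z} (hG : Good D W)
    (hn : ∀ i, Z.n i = (D i).n) {c0 : ℝ} (hb : ∀ i (r : ℕ) (x0 : Nd), r ≤ 2 * K * (D i).n →
      (((D i).X.filter fun x => |x.T - x0.T| ≤ 2 ^ r ∧ ∀ k, |x.o k - x0.o k| ≤ 2 ^ r).card : ℝ) ≤
        2 ^ (c0 * (K * (D i).n)) * 2 ^ (2 * r)) {S' : Sys} (d : Dns S' W.sys)
    (hs : ∀ i ω, 0 < (S'.P i).w ω → 0 < (W.sys.P i).w (d.π i ω)) {s : ℕ} (hs2 : s ≤ 2 * K) :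
    Cnt S' (W.flg.res d hs).x (NS.bl (W.flg.res d hs) s) (2 * s / K + c0) := by
  classical
  have hK : (0:ℝ) < K := by exact_mod_cast Z.K1
  intro ε hε
  filter_upwards [hG.sub] with i hi ω hω
  set x0 : Nd := (W.flg.res d hs).x i ω with hx0
  have hLS : (S'.L i : ℝ) = K * Z.n i := by
    have h1 : S'.L i = W.sys.L i := dns_L d i
    rw [h1, W.sys_L]
    push_cast
    rfl
  refine ⟨(D i).X.filter fun x => |x.T - x0.T| ≤ 2 ^ (s * (D i).n) ∧ ∀ k, |x.o k - x0.o k| ≤ 2 ^ (s * (D i).n), ?_, ?_⟩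
  · refine (hb i (s * (D i).n) x0 (Nat.mul_le_mul_right _ hs2)).trans ?_
    rw [hLS, hn i, ← Real.rpow_natCast 2 (2 * (s * (D i).n)), ← Real.rpow_add (by norm_num)]
    refine Real.rpow_le_rpow_of_exponent_le (by norm_num) ?_
    push_cast
    have e : (2 * (s:ℝ) / K + c0 + ε) * (K * (D i).n) = c0 * (K * (D i).n) + 2 * (s * (D i).n) + ε * (K * (D i).n) := by
      field_simp
      ring
    rw [e]
    have : 0 ≤ ε * (K * ((D i).n : ℝ)) := by positivity
    linarith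
  · intro ω' hω' e
    rw [mem_filter]
    have hx : (W.flg.res d hs).x i ω' ∈ (W.V i).X := nd_D (W.ok i) (c := 0) (Nat.zero_le _) (d.π i ω').2
    refine ⟨hi hx, ?_, fun k => ?_⟩
    · have e1 : ((W.flg.res d hs).N 0 i ω').T / 2 ^ (s * Z.n i) = ((W.flg.res d hs).N 0 i ω).T / 2 ^ (s * Z.n i) :=
        congrArg Prod.fst e
      have h2 := close_of_ediv (a := ((W.flg.res d hs).N 0 i ω').T) (b := ((W.flg.res d hs).N 0 i ω).T) (N := 2 ^ (s * Z.n i))
        (by positivity) (by push_cast; exact e1)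
      rw [← hn i]
      push_cast at h2
      exact_mod_cast h2
    · have e1 : ((W.flg.res d hs).N 0 i ω').o k / 2 ^ (s * Z.n i) = ((W.flg.res d hs).N 0 i ω).o k / 2 ^ (s * Z.n i) :=
        congrFun (congrArg Prod.snd e) k
      have h2 := close_of_ediv (a := ((W.flg.res d hs).N 0 i ω').o k) (b := ((W.flg.res d hs).N 0 i ω).o k) (N := 2 ^ (s * Z.n i))
        (by positivity) (by push_cast; exact e1)
      rw [← hn i]
      push_cast at h2
      exact_mod_cast h2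

end Vale.Agent.P076.NS
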