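import Vale.Agent.P076.NS.Geo

/-!
# P076 / NS : the numbers of a near-critical regular system (helper228)
-/

set_option autoImplicit false

namespace Vale.Agent.P076.NS

open Filter Topology Finset Vale.Agent.P127 Vale.Agent.P127.Stk Vale.Agent.P127.U Vale.Agent.P127.U.Sys Vale.Agent.P122.C2
  Vale.Agent.P122.E Vale.Agent.P122.H518 Vale.Agent.P122.H518.Cts

variable {K : ℕ} {F : Flg K} {J θ H : ℕ → ℝ}

/-- defect of the level `c` -/
noncomputable def df (F : Flg K) (θ : ℕ → ℝ) (c : ℕ) : ℝ := Cn F.S K F.N F.T c (c + 1) - 2 * θ c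

theorem df_nonneg (h : Cts F.S K F.N F.Y F.T F.sg H J θ) {c : ℕ} (hc : c < K) : 0 ≤ df F θ c := by
  have h1 := h.Cn_ge (Nat.le_succ c) hc
  rw [Nat.Ico_succ_singleton, sum_singleton] at h1
  unfold df
  linarith

theorem En_eq (h : Cts F.S K F.N F.Y F.T F.sg H J θ) {d : ℕ} (hd : d ≤ K) :
    En K H J θ d = 2 * d / K - ∑ c ∈ range d, tc F c + ∑ c ∈ range d, df F θ c := by
  induction d with
  | zero => simp [En_zero]
  | succ d ih =>
    have h1 := h.En_sub (Nat.le_succ d) hd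
    rw [Nat.Ico_succ_singleton, sum_singleton] at h1
    rw [sum_range_succ, sum_range_succ]
    have h2 := ih (by omega)
    have h3 : Dn F.S K F.N F.T d (d + 1) = 2 / K - tc F d := by
      unfold Dn tc
      push_cast
      ring
    have h4 : 2 * ((d + 1 : ℕ) : ℝ) / K = 2 * d / K + 2 / K := by push_cast; ring
    have h5 : df F θ d = Cn F.S K F.N F.T d (d + 1) - 2 * θ d := rfl
    rw [h4, h5]
    have h6 : En K H J θ d.succ = En K H J θ (d + 1) := rfl
    have h7 : Dn F.S K F.N F.T d d.succ = Dn F.S K F.N F.T d (d + 1) := rfl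
    have h8 : Cn F.S K F.N F.T d d.succ = Cn F.S K F.N F.T d (d + 1) := rfl
    rw [h6, h7, h8, h3] at h1
    linarith

theorem En_K (hK : 1 ≤ K) (H J θ : ℕ → ℝ) :
    En K H J θ K = 4 - (H 0 + ∑ c ∈ range K, J c - H K) - 2 * ∑ c ∈ range K, θ c := by
  have hK' : (K:ℝ) ≠ 0 := by
    have : 0 < K := hK
    exact_mod_cast this.ne'
  unfold En
  rw [mul_div_assoc, div_self hK', mul_one]

/-- time digits in all -/
theorem tc_eq (hK : 1 ≤ K) (h : Cts F.S K F.N F.Y F.T F.sg H J θ) :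
    ∑ c ∈ range K, tc F c = (H 0 + ∑ c ∈ range K, J c - H K) + 2 * ∑ c ∈ range K, θ c - 2 + ∑ c ∈ range K, df F θ c := by
  have h1 := En_eq h le_rfl
  rw [En_K hK] at h1
  have hK' : (K:ℝ) ≠ 0 := by
    have : 0 < K := hK
    exact_mod_cast this.ne'
  rw [mul_div_assoc, div_self hK', mul_one] at h1
  linarith

variable {e : ℕ → ℝ} {W : ℕ → F.S.BX} {kk jj : ℕ → ℕ → ℕ}

theorem num_tri (hK : 1 ≤ K) (R : RegA F J θ H e W kk jj) {ε : ℝ}
    (h1 : 3 + ε ≤ H 0 + 3 / 2 * (∑ c ∈ range K, J c + 2 * ∑ c ∈ range K, θ c - H K)) :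
    H 0 + 2 * ε ≤ 3 * ∑ c ∈ range K, tc F c := by
  have h := cts hK R
  have h2 := tc_eq hK h
  have h3 : 0 ≤ ∑ c ∈ range K, df F θ c := sum_nonneg fun c hc => df_nonneg h (mem_range.1 hc)
  linarith

theorem num_bg (hK : 1 ≤ K) (R : RegA F J θ H e W kk jj) {c1 κ : ℝ} (hκ : 0 ≤ κ) (hT : TG0 F c1)
    (h1 : 10 / 3 - κ ≤ H 0 + ∑ c ∈ range K, J c - H K + 2 * ∑ c ∈ range K, θ c)
    (h2 : 3 * ∑ c ∈ range K, tc F c ≤ F.S.h F.x + κ) (h3 : F.S.h F.x ≤ 4 + κ)
    (h4 : ∀ s, s ≤ 2 * K → F.S.hc F.x (NS.bl F s) ≤ 2 * s / K + κ) : TGH F c1 (3 * κ) := by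
  have h := cts hK R
  have h5 := tc_eq hK h
  have h6 : 0 ≤ ∑ c ∈ range K, df F θ c := sum_nonneg fun c hc => df_nonneg h (mem_range.1 hc)
  refine { hT with I4 := by linarith, gr := fun s hs => (h4 s hs).trans (by linarith), I5 := fun d hd => ?_ }
  -- directions
  have h7 : ∑ c ∈ range d, df F θ c ≤ ∑ c ∈ range K, df F θ c :=
    sum_le_sum_of_subset_of_nonneg (range_subset_range.2 hd) fun c hc _ => df_nonneg h (mem_range.1 hc)
  have h8 : ∑ c ∈ range K, df F θ c ≤ 2 * κ := by linarith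
  have h9 := h.hc_x_N hd
  have h10 := En_eq h hd
  have h11 := (h.markov (Nat.zero_le d) hd).1
  have h12 : F.S.hc (F.Y d) (Sys.pr (F.N 0) (F.N 0)) = F.S.hc (F.Y d) F.x :=
    hc_congr (ffst _ _) (ffst _ _) (fpr (frf _) (frf _)) (ffst _ _)
  rw [h12, Nat.Ico_zero_eq_range] at h11
  have h13 : 2 * ∑ c ∈ range d, θ c ≤ ∑ c ∈ range d, J c := by
    rw [mul_sum]
    exact sum_le_sum fun c hc => R.L c (by have := mem_range.1 hc; omega)
  have h14 : F.S.hc F.x (F.N d) = H 0 + ∑ k ∈ range d, J k - H d := h9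
  unfold En at h10
  rw [h11, h14]
  have h15 : 4 * (d:ℝ) / K = 2 * (2 * d / K) := by ring
  linarith

end Vale.Agent.P076.NS
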