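import Vale.Agent.P076.NS.Seq0

/-!
# P076 / NS : sequences of violators (helper228)
-/

set_option autoImplicit false

namespace Vale.Agent.P076.NS

open Finset Vale.Agent.P122.C2 Vale.Agent.P122.H610

section

variable {K j : ℕ} {A c1 C : ℝ}

theorem cKc_ge (C : ℝ) (K : ℕ) (hC : 1 ≤ C) : 1 ≤ cKc C K := by
  unfold cKc
  have : (0:ℝ) ≤ K := Nat.cast_nonneg _
  linarith

theorem Tn_nonneg (K j : ℕ) (A C : ℝ) (hC : 1 ≤ C) (m n : ℕ) : 0 ≤ Tn K j A C m n := by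
  unfold Tn
  have : 0 ≤ cKc C K := by unfold cKc; positivity
  positivity

/-- the constant of the count of cells, without powers of `2 ^ n` -/
noncomputable def cX (C : ℝ) (K j : ℕ) : ℝ := cKc C K ^ 2 * (2 * Mth C j + 1) ^ 2

theorem cX_ge (C : ℝ) (K j : ℕ) (hC : 1 ≤ C) : 1 ≤ cX C K j := by
  unfold cX
  have h1 := cKc_ge C K hC
  have h2 : (1:ℝ) ≤ 2 * Mth C j + 1 := by
    have : (0:ℝ) ≤ Mth C j := Nat.cast_nonneg _
    linarith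
  calc (1:ℝ) = 1 ^ 2 * 1 ^ 2 := by norm_num
    _ ≤ _ := by gcongr

/-- the constant of the violator `i` -/
noncomputable def Ci (K j : ℕ) (A C : ℝ) (m i : ℕ) : ℝ :=
  4 * cX C K j ^ 3 + ∑ k ∈ range i, Tn K j A C m k

theorem Ci_ge (K j : ℕ) (A C : ℝ) (hC : 1 ≤ C) (m i : ℕ) : 4 * cX C K j ^ 3 ≤ Ci K j A C m i := by
  unfold Ci
  have : 0 ≤ ∑ k ∈ range i, Tn K j A C m k := sum_nonneg fun k _ => Tn_nonneg K j A C hC m k
  linarith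

theorem Ci_ge1 (K j : ℕ) (A C : ℝ) (hC : 1 ≤ C) (m i : ℕ) : 1 ≤ Ci K j A C m i := by
  have h1 := Ci_ge K j A C hC m i
  have h2 := cX_ge C K j hC
  have h3 : (1:ℝ) ≤ cX C K j ^ 3 := one_le_pow₀ h2
  linarith

theorem Ci_ge_T {k i : ℕ} (A C : ℝ) (hC : 1 ≤ C) (m : ℕ) (h : k < i) : Tn K j A C m k ≤ Ci K j A C m i := by
  unfold Ci
  have h1 : Tn K j A C m k ≤ ∑ k ∈ range i, Tn K j A C m k :=
    single_le_sum (f := fun k => Tn K j A C m k) (fun k _ => Tn_nonneg K j A C hC m k) (mem_range.2 h)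
  have h2 := cX_ge C K j hC
  have h3 : (0:ℝ) ≤ cX C K j ^ 3 := by positivity
  linarith

/-- a violator has large `n` and positive energy -/
theorem viol_n (D : Dt K j A c1 C) (hC : 1 ≤ C) (hj : j < K) (m i : ℕ) (hm : m ≠ 0)
    (h : Ci K j A C m i * Real.sqrt D.Q ^ m < D.β ^ m * D.X.card) : i ≤ D.n ∧ 0 < D.Q := by
  have h1 := D.triv hC hj m
  have hq : 0 < D.Q := by
    rcases D.Q_nonneg.eq_or_lt with h0 | h0
    · rw [← h0, Real.sqrt_zero, zero_pow hm, mul_zero] at h1 h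
      linarith
    · exact h0
  refine ⟨?_, hq⟩
  by_contra hcon
  push Not at hcon
  have h2 := Ci_ge_T (K := K) (j := j) A C hC m hcon
  have h3 : 0 < Real.sqrt D.Q ^ m := pow_pos (Real.sqrt_pos.2 hq) m
  have h4 := mul_le_mul_of_nonneg_right h2 h3.le
  linarith

/-- the hypothesis of `seq_of` in terms of `β` -/
theorem viol_H (D : Dt K j A c1 C)
    (h : 2 * cX C K j * 2 ^ ((9 * j + 3 * A) * D.n) * Real.sqrt D.Q ^ 3 ≤ D.β ^ 3 * D.X.card) :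
    2 * cKc C K ^ 2 * 2 ^ (3 * (j * D.n)) * Real.sqrt D.Q ^ 3 * Bth C j D.n ≤ D.b ^ 3 * D.X.card := by
  have h1 := Bth_le C j D.n
  have e1 : D.b ^ 3 = 2 ^ (-(3 * A * D.n)) * D.β ^ 3 := by
    unfold Dt.b
    rw [mul_pow, ← Real.rpow_natCast ((2:ℝ) ^ _) 3, ← Real.rpow_mul (by norm_num), mul_comm]
    congr 2
    push_cast
    ring
  have e2 : (2:ℝ) ^ (-(3 * A * D.n)) * 2 ^ ((9 * j + 3 * A) * D.n) = 2 ^ (3 * (j * D.n)) * 2 ^ (6 * (j * D.n)) := by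
    rw [← Real.rpow_natCast, ← Real.rpow_natCast, ← Real.rpow_add (by norm_num), ← Real.rpow_add (by norm_num)]
    congr 1
    push_cast
    ring
  have h0 : (0:ℝ) < 2 ^ (-(3 * A * D.n)) := Real.rpow_pos_of_pos (by norm_num) _
  calc 2 * cKc C K ^ 2 * 2 ^ (3 * (j * D.n)) * Real.sqrt D.Q ^ 3 * Bth C j D.n
      ≤ 2 * cKc C K ^ 2 * 2 ^ (3 * (j * D.n)) * Real.sqrt D.Q ^ 3 * ((2 * Mth C j + 1) ^ 2 * 2 ^ (6 * (j * D.n))) := by
        gcongr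
    _ = 2 * cX C K j * (2 ^ (3 * (j * D.n)) * 2 ^ (6 * (j * D.n))) * Real.sqrt D.Q ^ 3 := by unfold cX; ring
    _ = 2 ^ (-(3 * A * D.n)) * (2 * cX C K j * 2 ^ ((9 * j + 3 * A) * D.n) * Real.sqrt D.Q ^ 3) := by rw [← e2]; ring
    _ ≤ 2 ^ (-(3 * A * D.n)) * (D.β ^ 3 * D.X.card) := mul_le_mul_of_nonneg_left h h0.le
    _ = _ := by rw [e1]; ring

/-- violators of the trilinear bound -/
theorem viol_tri (D : Dt K j A c1 C) (hC : 1 ≤ C) (hj : j < K) {ε : ℝ} (hε : 0 < ε) (hK : 9 * j + 3 * A ≤ 3 * K) (i : ℕ)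
    (h : Ci K j A C 3 i * 2 ^ (ε * (K * D.n)) * (2 ^ (2 * K * D.n) * D.Q) ^ (3 / 2 : ℝ) < D.β ^ 3 * D.X.card) :
    i ≤ D.n ∧ 0 < D.Q ∧
      2 * cKc C K ^ 2 * 2 ^ (3 * (j * D.n)) * Real.sqrt D.Q ^ 3 * Bth C j D.n ≤ D.b ^ 3 * D.X.card ∧
      2 ^ ((3 + ε) * (K * D.n)) * Real.sqrt D.Q ^ 3 ≤ D.β ^ 3 * D.X.card := by
  have hQ := D.Q_nonneg
  have hs0 := Real.sqrt_nonneg D.Q
  have e1 : ((2:ℝ) ^ (2 * K * D.n) * D.Q) ^ (3 / 2 : ℝ) = 2 ^ (3 * ((K:ℝ) * D.n)) * Real.sqrt D.Q ^ 3 := by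
    rw [Real.mul_rpow (by positivity) hQ, ← Real.rpow_natCast 2 (2 * K * D.n), ← Real.rpow_mul (by norm_num)]
    congr 1
    · congr 1
      push_cast
      ring
    · rw [Real.sqrt_eq_rpow, ← Real.rpow_natCast, ← Real.rpow_mul hQ]
      norm_num
  have hn0 : (0:ℝ) ≤ K * D.n := by positivity
  have e2 : (2:ℝ) ^ (ε * (K * D.n)) * 2 ^ (3 * ((K:ℝ) * D.n)) = 2 ^ ((3 + ε) * (K * D.n)) := by
    rw [← Real.rpow_add (by norm_num)]
    congr 1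
    ring
  have h1 : Ci K j A C 3 i * (2 ^ ((3 + ε) * (K * D.n)) * Real.sqrt D.Q ^ 3) < D.β ^ 3 * D.X.card := by
    have : Ci K j A C 3 i * 2 ^ (ε * (K * D.n)) * (2 ^ (2 * K * D.n) * D.Q) ^ (3 / 2 : ℝ) =
      Ci K j A C 3 i * (2 ^ ((3 + ε) * (K * D.n)) * Real.sqrt D.Q ^ 3) := by
      rw [e1, ← e2]
      ring
    rw [← this]
    exact h
  have hp : (1:ℝ) ≤ 2 ^ ((3 + ε) * (K * D.n)) := Real.one_le_rpow (by norm_num) (by positivity)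
  have hC1 := Ci_ge1 K j A C hC 3 i
  have hq3 : 0 ≤ Real.sqrt D.Q ^ 3 := by positivity
  have h2 : Ci K j A C 3 i * Real.sqrt D.Q ^ 3 < D.β ^ 3 * D.X.card := by
    refine lt_of_le_of_lt ?_ h1
    refine mul_le_mul_of_nonneg_left ?_ (by linarith)
    nlinarith
  obtain ⟨h3, h4⟩ := viol_n D hC hj 3 i (by norm_num) h2
  refine ⟨h3, h4, viol_H D ?_, ?_⟩
  · refine le_trans ?_ h1.le
    have h5 := Ci_ge K j A C hC 3 i
    have h6 := cX_ge C K j hC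
    have h7 : 2 * cX C K j ≤ Ci K j A C 3 i := by
      have : cX C K j ≤ cX C K j ^ 3 := le_self_pow₀ h6 (by norm_num)
      linarith
    have h8 : (2:ℝ) ^ ((9 * j + 3 * A) * D.n) ≤ 2 ^ ((3 + ε) * (K * D.n)) := by
      refine Real.rpow_le_rpow_of_exponent_le (by norm_num) ?_
      have h9 : (9 * j + 3 * A) * (D.n : ℝ) ≤ 3 * K * D.n := mul_le_mul_of_nonneg_right hK (Nat.cast_nonneg _)
      nlinarith
    calc 2 * cX C K j * 2 ^ ((9 * j + 3 * A) * D.n) * Real.sqrt D.Q ^ 3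
        ≤ Ci K j A C 3 i * 2 ^ ((3 + ε) * (K * D.n)) * Real.sqrt D.Q ^ 3 := by gcongr
      _ = _ := by ring
  · refine le_trans ?_ h1.le
    exact le_mul_of_one_le_left (by positivity) hC1

/-- violators of the bound with gain -/
theorem viol_bg (D : Dt K j A c1 C) (hC : 1 ≤ C) (hj : j < K) {κ : ℝ} (hκ : κ ≤ 1) (hK : 24 * j + 6 * A ≤ K) (i : ℕ)
    (h : Ci K j A C 2 i * 2 ^ (-(κ * (K * D.n))) * 2 ^ (4 / 3 * (K * D.n : ℝ)) * (2 ^ (2 * K * D.n) * D.Q) < D.β ^ 2 * D.X.card) :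
    i ≤ D.n ∧ 0 < D.Q ∧
      2 * cKc C K ^ 2 * 2 ^ (3 * (j * D.n)) * Real.sqrt D.Q ^ 3 * Bth C j D.n ≤ D.b ^ 3 * D.X.card ∧
      2 ^ ((10 / 3 - κ) * (K * D.n)) * D.Q ≤ D.β ^ 2 * D.X.card := by
  have hQ := D.Q_nonneg
  have hs2 : Real.sqrt D.Q ^ 2 = D.Q := Real.sq_sqrt hQ
  have hn0 : (0:ℝ) ≤ K * D.n := by positivity
  have e2 : (2:ℝ) ^ (-(κ * (K * D.n))) * 2 ^ (4 / 3 * (K * D.n : ℝ)) * 2 ^ (2 * K * D.n) = 2 ^ ((10 / 3 - κ) * (K * D.n)) := by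
    rw [← Real.rpow_natCast 2 (2 * K * D.n), ← Real.rpow_add (by norm_num), ← Real.rpow_add (by norm_num)]
    congr 1
    push_cast
    ring
  have h1 : Ci K j A C 2 i * (2 ^ ((10 / 3 - κ) * (K * D.n)) * D.Q) < D.β ^ 2 * D.X.card := by
    refine lt_of_eq_of_lt ?_ h
    rw [← e2]
    ring
  have hp : (1:ℝ) ≤ 2 ^ ((10 / 3 - κ) * (K * D.n)) := Real.one_le_rpow (by norm_num) (by nlinarith)
  have hC1 := Ci_ge1 K j A C hC 2 i
  have h2 : Ci K j A C 2 i * Real.sqrt D.Q ^ 2 < D.β ^ 2 * D.X.card := by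
    rw [hs2]
    refine lt_of_le_of_lt ?_ h1
    refine mul_le_mul_of_nonneg_left ?_ (by linarith)
    nlinarith
  obtain ⟨h3, h4⟩ := viol_n D hC hj 2 i (by norm_num) h2
  have h10 : 2 ^ ((10 / 3 - κ) * (K * D.n)) * D.Q ≤ D.β ^ 2 * D.X.card :=
    le_trans (le_mul_of_one_le_left (by positivity) hC1) h1.le
  refine ⟨h3, h4, viol_H D ?_, h10⟩
  -- squares
  have h6 := cX_ge C K j hC
  have hX := D.card_le hC hj
  have hX0 : (0:ℝ) < D.X.card := by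
    have : (0:ℝ) < D.β ^ 2 * D.X.card := lt_of_lt_of_le (by positivity) h10
    have h0 := D.β0
    exact pos_of_mul_pos_right this (by positivity)
  have hX' : (D.X.card : ℝ) ≤ cX C K j * 2 ^ (6 * ((K:ℝ) * D.n) + 6 * (j * D.n)) := by
    refine hX.trans (le_of_eq ?_)
    unfold cX
    rw [← Real.rpow_natCast 2 (6 * (K * D.n) + 6 * (j * D.n))]
    push_cast
    ring
  have hs6 : (Real.sqrt D.Q ^ 3) ^ 2 = D.Q ^ 3 := by
    rw [← pow_mul, show 3 * 2 = 2 * 3 by norm_num, pow_mul, hs2]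
  have key : (2 * cX C K j * 2 ^ ((9 * j + 3 * A) * D.n) * Real.sqrt D.Q ^ 3) ^ 2 * D.X.card ≤ (D.β ^ 3 * D.X.card) ^ 2 * D.X.card := by
    have e3 : (D.β ^ 3 * D.X.card) ^ 2 * D.X.card = (D.β ^ 2 * D.X.card) ^ 3 := by ring
    rw [e3]
    have e4 : (2 * cX C K j * 2 ^ ((9 * j + 3 * A) * D.n) * Real.sqrt D.Q ^ 3) ^ 2 =
        4 * cX C K j ^ 2 * 2 ^ (2 * ((9 * j + 3 * A) * D.n)) * D.Q ^ 3 := by
      rw [mul_pow, mul_pow, mul_pow, hs6, ← Real.rpow_natCast ((2:ℝ) ^ ((9 * j + 3 * A) * D.n)) 2, ← Real.rpow_mul (by norm_num)]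
      have : (9 * (j:ℝ) + 3 * A) * D.n * (2:ℕ) = 2 * ((9 * j + 3 * A) * D.n) := by push_cast; ring
      rw [this]
      norm_num
    rw [e4]
    have h7 : 4 * cX C K j ^ 3 ≤ Ci K j A C 2 i ^ 3 := by
      have h8 := Ci_ge K j A C hC 2 i
      exact h8.trans (le_self_pow₀ hC1 (by norm_num))
    have h8 : (2:ℝ) ^ (2 * ((9 * j + 3 * A) * D.n)) * 2 ^ (6 * ((K:ℝ) * D.n) + 6 * (j * D.n)) ≤
        (2 ^ ((10 / 3 - κ) * (K * D.n))) ^ 3 := by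
      rw [← Real.rpow_natCast ((2:ℝ) ^ ((10 / 3 - κ) * (K * D.n))) 3, ← Real.rpow_mul (by norm_num), ← Real.rpow_add (by norm_num)]
      refine Real.rpow_le_rpow_of_exponent_le (by norm_num) ?_
      push_cast
      have h9 : (24 * j + 6 * A) * (D.n : ℝ) ≤ K * D.n := mul_le_mul_of_nonneg_right hK (Nat.cast_nonneg _)
      nlinarith
    calc 4 * cX C K j ^ 2 * 2 ^ (2 * ((9 * j + 3 * A) * D.n)) * D.Q ^ 3 * D.X.card
        ≤ 4 * cX C K j ^ 2 * 2 ^ (2 * ((9 * j + 3 * A) * D.n)) * D.Q ^ 3 * (cX C K j * 2 ^ (6 * ((K:ℝ) * D.n) + 6 * (j * D.n))) := by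
          gcongr
      _ = 4 * cX C K j ^ 3 * (2 ^ (2 * ((9 * j + 3 * A) * D.n)) * 2 ^ (6 * ((K:ℝ) * D.n) + 6 * (j * D.n))) * D.Q ^ 3 := by ring
      _ ≤ Ci K j A C 2 i ^ 3 * (2 ^ ((10 / 3 - κ) * (K * D.n))) ^ 3 * D.Q ^ 3 := by gcongr
      _ = (Ci K j A C 2 i * (2 ^ ((10 / 3 - κ) * (K * D.n)) * D.Q)) ^ 3 := by ring
      _ ≤ _ := pow_le_pow_left₀ (by positivity) h1.le 3
  have key2 := le_of_mul_le_mul_right key hX0
  have hβ := D.β0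
  exact le_of_sq_le_sq key2 (by positivity)

end

end Vale.Agent.P076.NS
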