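import Vale.Agent.P076.NS.Lim
import Vale.Agent.P076.NS.Gr
import Vale.Agent.P076.NS.Viol
import Vale.Agent.P076.H429.Flat
import Vale.Agent.P076.NS.Num
import Vale.Agent.P122.E.RGFin
import Vale.Agent.P122.H425.PLaw

/-!
# P076 / NS : the broad estimates (helper228)

`tri_of : StLWe → StTRIe`, `bg_of : StLWe → BG.StTG' → StBG`.
-/

set_option autoImplicit false

namespace Vale.Agent.P076.NS

open Filter Topology Finset Vale.Agent.P127 Vale.Agent.P127.Stk Vale.Agent.P127.U Vale.Agent.P127.U.Sys Vale.Agent.P122.C2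
  Vale.Agent.P122.E Vale.Agent.P122.H518 Vale.Agent.P122.H610 Vale.Agent.P122.H474 Vale.Agent.P076.H803 Vale.Agent.P076.H429

/-- the regular flat system of a sequence of violators -/
theorem exists_sys {K j : ℕ} {A c1 C : ℝ} (hj1 : 1 ≤ j) (hj : j < K) (hC : 1 ≤ C) (D : ℕ → Dt K j A c1 C)
    (hn : ∀ i, i ≤ (D i).n) (hQ : ∀ i, 0 < (D i).Q)
    (H : ∀ i, 2 * cKc C K ^ 2 * 2 ^ (3 * (j * (D i).n)) * Real.sqrt (D i).Q ^ 3 * Bth C j (D i).n ≤ (D i).b ^ 3 * (D i).X.card) :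
    ∃ (Z : CS K) (W : VS Z) (hs : ℕ → ℝ) (B : ℕ → W.sys.BX) (kk jj : ℕ → ℕ → ℕ) (S' : Sys) (d : Dns S' W.sys)
      (hd : ∀ i ω, 0 < (S'.P i).w ω → 0 < (W.sys.P i).w (d.π i ω)), (∀ i, Z.n i = (D i).n) ∧ Good D W ∧
      RegA W.flg W.Jn (thn W) hs W.en B kk jj ∧ (∀ i (U : Finset Nd), ∑ S ∈ U, (Z.F i).a K S ^ 2 ≤ (D i).Q) ∧
      FlatF (W.flg.res d hd) ∧ TG0 (W.flg.res d hd) c1 ∧ (W.flg.res d hd).S.h (W.flg.res d hd).x = hs 0 := by
  obtain ⟨Z, W0, hZn, -, hen, hgood⟩ := seq_of hj1 hj hC D hn hQ H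
  obtain ⟨W, hle, -, Hs, B, kk, jj, R⟩ := rG1_of Vale.Agent.P122.H425.pLaw Z W0
  obtain ⟨S', d, hd, hF⟩ := exists_flat W.flg
  have hK : 1 ≤ K := by omega
  have h1 : (W.flg.res d hd).S.h (W.flg.res d hd).x = Hs 0 := (cts hK (RegA.res R d hd)).hN 0 (Nat.zero_le K)
  have hlow : Low S' (d.pull W.flg.x) (Hs 0) := by
    have h2 := hF.low (rp_x (W.flg.res d hd))
    rw [h1] at h2
    exact h2
  exact ⟨Z, W, Hs, B, kk, jj, S', d, hd, hZn, hgood W hle, R, hen, hF, tg0_res (hgood W hle) hK R d hd hlow, h1⟩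

/-- **[TRI]** -/
theorem tri_of (hLW : StLWe) : StTRIe := by
  intro ε hε j A hj1
  obtain ⟨K1, hK1⟩ := hLW (ε / 2) (by positivity)
  obtain ⟨K2, hK2⟩ := exists_nat_ge (2 * (15 * j + 3 * |A|) / ε)
  obtain ⟨K3, hK3⟩ := exists_nat_ge (9 * j + 3 * |A|)
  refine ⟨max (max K1 K2) (max K3 (j + 1)), fun K hK c1 C hc1 hC => ?_⟩
  have hKK1 : K1 ≤ K := (le_max_left _ _).trans ((le_max_left _ _).trans hK)
  have hKK2 : K2 ≤ K := (le_max_right _ _).trans ((le_max_left _ _).trans hK)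
  have hKK3 : K3 ≤ K := (le_max_left _ _).trans ((le_max_right _ _).trans hK)
  have hj : j < K := by
    have : j + 1 ≤ K := (le_max_right _ _).trans ((le_max_right _ _).trans hK)
    omega
  have hKp : (0:ℝ) < K := by
    have : 0 < K := by omega
    exact_mod_cast this
  have hA := le_abs_self A
  have hK9 : 9 * (j:ℝ) + 3 * A ≤ 3 * K := by
    have h1 : (K3:ℝ) ≤ K := by exact_mod_cast hKK3
    linarith
  have hsmall : (15 * j + 3 * A) / K ≤ ε / 2 := by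
    rw [div_le_iff₀ hKp]
    have h1 : (K2:ℝ) ≤ K := by exact_mod_cast hKK2
    have h2 := hK2.trans h1
    rw [div_le_iff₀ hε] at h2
    linarith
  by_contra hcon
  have hcon' : ∀ i : ℕ, ∃ D : Dt K j A c1 C,
      Ci K j A C 3 i * 2 ^ (ε * (K * D.n)) * (2 ^ (2 * K * D.n) * D.Q) ^ (3 / 2 : ℝ) < D.β ^ 3 * D.X.card := by
    intro i
    by_contra hno
    refine hcon ⟨Ci K j A C 3 i, le_trans zero_le_one (Ci_ge1 K j A C hC 3 i), fun n F β Q X G hβ hB hen => ?_⟩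
    by_contra hlt
    exact hno ⟨⟨n, F, β, Q, X, G, hβ, hB, hen⟩, not_le.1 hlt⟩
  choose D hD using hcon'
  have hv := fun i => viol_tri (D i) hC hj hε hK9 i (hD i)
  obtain ⟨Z, W, Hs, B, kk, jj, S', d, hd, hZn, hG, R, hen, hF, hT, hx⟩ :=
    exists_sys hj1 hj hC D (fun i => (hv i).1) (fun i => (hv i).2.1) (fun i => (hv i).2.2.1)
  have hq : ∀ i, 0 < Real.sqrt (D i).Q ^ 3 := fun i => pow_pos (Real.sqrt_pos.2 (hv i).2.1) 3
  have hnum : 3 + ε ≤ 3 / 2 * (2 * (A + j) / K + SS K W.Jn (thn W) Hs) + (Hs 0 + 12 * j / K) := by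
    refine exp_le Z hq fun δ hδ => ?_
    have hδ3 : 0 < δ / 3 := by positivity
    filter_upwards [lim_beta hG R hen (δ / 3) hδ3, lim_card hG R (δ / 3) hδ3] with i h1 h2
    have h3 := (hv i).2.2.2
    rw [← hZn i] at h3
    refine h3.trans ?_
    set L : ℝ := (K:ℝ) * Z.n i with hL
    set a : ℝ := 2 * (A + j) / K + SS K W.Jn (thn W) Hs + δ / 3 with ha
    have hβ := (D i).β0
    have hsq : (D i).β ≤ 2 ^ (a / 2 * L) * Real.sqrt (D i).Q := by
      refine le_of_sq_le_sq ?_ (by positivity)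
      rw [mul_pow, Real.sq_sqrt (D i).Q_nonneg, ← Real.rpow_natCast ((2:ℝ) ^ (a / 2 * L)) 2, ← Real.rpow_mul (by norm_num)]
      have e : a / 2 * L * (2:ℕ) = a * L := by push_cast; ring
      rw [e]
      exact h1
    have h4 : (D i).β ^ 3 ≤ (2 ^ (a / 2 * L) * Real.sqrt (D i).Q) ^ 3 := pow_le_pow_left₀ hβ.le hsq 3
    calc (D i).β ^ 3 * (D i).X.card ≤ (2 ^ (a / 2 * L) * Real.sqrt (D i).Q) ^ 3 * 2 ^ ((Hs 0 + 12 * j / K + δ / 3) * L) :=
          mul_le_mul h4 h2 (Nat.cast_nonneg _) (by positivity)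
      _ = 2 ^ ((3 / 2 * a + (Hs 0 + 12 * j / K + δ / 3)) * L) * Real.sqrt (D i).Q ^ 3 := by
          rw [mul_pow, ← Real.rpow_natCast ((2:ℝ) ^ (a / 2 * L)) 3, ← Real.rpow_mul (by norm_num), mul_right_comm,
            ← Real.rpow_add (by norm_num)]
          congr 2
          push_cast
          ring
      _ ≤ _ := by
          refine mul_le_mul_of_nonneg_right (Real.rpow_le_rpow_of_exponent_le (by norm_num) ?_) (hq i).le
          refine mul_le_mul_of_nonneg_right ?_ (by positivity)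
          rw [ha]
          linarith
  have h5 := num_tri (F := W.flg.res d hd) (by omega) (RegA.res R d hd) (ε := ε - (15 * j + 3 * A) / K) (by
    have e : (15 * (j:ℝ) + 3 * A) / K = 3 / 2 * (2 * (A + j) / K) + 12 * j / K := by ring
    rw [e]
    unfold SS at hnum
    linarith)
  have h6 := hK1 c1 hc1 K (W.flg.res d hd) hKK1 hT
  rw [hx] at h6
  linarith

/-- **[BG]** -/
theorem bg_of (hLW : StLWe) (hTG : BG.StTG') : StBG := by
  obtain ⟨κT, K0, hκT, hTG⟩ := hTG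
  set κn : ℝ := κT / 3 with hκn
  have hκn0 : 0 < κn := by positivity
  set κ : ℝ := min (κn / 2) 1 with hκ
  have hκ0 : 0 < κ := lt_min (by positivity) one_pos
  have hκ1 : κ ≤ 1 := min_le_right _ _
  have hκ2 : κ ≤ κn / 2 := min_le_left _ _
  refine ⟨κ, κn, hκ0, hκn0, fun j A hj1 => ?_⟩
  obtain ⟨K1, hK1⟩ := hLW κn hκn0
  obtain ⟨K2, hK2⟩ := exists_nat_ge (2 * (14 * j + 2 * |A|) / κn)
  obtain ⟨K3, hK3⟩ := exists_nat_ge (24 * j + 6 * |A|)
  refine ⟨max (max K0 K1) (max K2 (max K3 (j + 1))), fun K hK c1 C hc1 hC => ?_⟩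
  have hKK0 : K0 ≤ K := (le_max_left _ _).trans ((le_max_left _ _).trans hK)
  have hKK1 : K1 ≤ K := (le_max_right _ _).trans ((le_max_left _ _).trans hK)
  have hKK2 : K2 ≤ K := (le_max_left _ _).trans ((le_max_right _ _).trans hK)
  have hKK3 : K3 ≤ K := (le_max_left _ _).trans ((le_max_right _ _).trans ((le_max_right _ _).trans hK))
  have hj : j < K := by
    have : j + 1 ≤ K := (le_max_right _ _).trans ((le_max_right _ _).trans ((le_max_right _ _).trans hK))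
    omega
  have hKp : (0:ℝ) < K := by
    have : 0 < K := by omega
    exact_mod_cast this
  have hA := le_abs_self A
  have hK24 : 24 * (j:ℝ) + 6 * A ≤ K := by
    have h1 : (K3:ℝ) ≤ K := by exact_mod_cast hKK3
    linarith
  have hsmall : (14 * j + 2 * A) / K ≤ κn / 2 := by
    rw [div_le_iff₀ hKp]
    have h1 : (K2:ℝ) ≤ K := by exact_mod_cast hKK2
    have h2 := hK2.trans h1
    rw [div_le_iff₀ hκn0] at h2
    linarith
  by_contra hcon
  have hcon' : ∀ i : ℕ, ∃ D : Dt K j A c1 C,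
      (∀ (r : ℕ) (x0 : Nd), r ≤ 2 * K * D.n → ((D.X.filter fun x => |x.T - x0.T| ≤ 2 ^ r ∧ ∀ k, |x.o k - x0.o k| ≤ 2 ^ r).card : ℝ) ≤
        2 ^ (κn * (K * D.n)) * 2 ^ (2 * r)) ∧
      Ci K j A C 2 i * 2 ^ (-(κ * (K * D.n))) * 2 ^ (4 / 3 * (K * D.n : ℝ)) * (2 ^ (2 * K * D.n) * D.Q) < D.β ^ 2 * D.X.card := by
    intro i
    by_contra hno
    refine hcon ⟨Ci K j A C 2 i, le_trans zero_le_one (Ci_ge1 K j A C hC 2 i), fun n F β Q X G hβ hB hen hball => ?_⟩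
    by_contra hlt
    exact hno ⟨⟨n, F, β, Q, X, G, hβ, hB, hen⟩, hball, not_le.1 hlt⟩
  choose D hball hD using hcon'
  have hv := fun i => viol_bg (D i) hC hj hκ1 hK24 i (hD i)
  obtain ⟨Z, W, Hs, B, kk, jj, S', d, hd, hZn, hG, R, hen, hF, hT, hx⟩ :=
    exists_sys hj1 hj hC D (fun i => (hv i).1) (fun i => (hv i).2.1) (fun i => (hv i).2.2.1)
  have hnum : 10 / 3 - κ ≤ 2 * (A + j) / K + SS K W.Jn (thn W) Hs + (Hs 0 + 12 * j / K) := by
    refine exp_le Z (q := fun i => (D i).Q) (fun i => (hv i).2.1) fun δ hδ => ?_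
    have hδ2 : 0 < δ / 2 := by positivity
    filter_upwards [lim_beta hG R hen (δ / 2) hδ2, lim_card hG R (δ / 2) hδ2] with i h1 h2
    have h3 := (hv i).2.2.2
    rw [← hZn i] at h3
    refine h3.trans ?_
    have hq := (hv i).2.1
    set L : ℝ := (K:ℝ) * Z.n i with hL
    calc (D i).β ^ 2 * (D i).X.card ≤
          2 ^ ((2 * (A + j) / K + SS K W.Jn (thn W) Hs + δ / 2) * L) * (D i).Q * 2 ^ ((Hs 0 + 12 * j / K + δ / 2) * L) :=
          mul_le_mul h1 h2 (Nat.cast_nonneg _) (by positivity)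
      _ = _ := by
          rw [mul_right_comm, ← Real.rpow_add (by norm_num)]
          congr 2
          ring
  have hgr : ∀ s, s ≤ 2 * K → (W.flg.res d hd).S.hc (W.flg.res d hd).x (NS.bl (W.flg.res d hd) s) ≤ 2 * s / K + κn := fun s hs =>
    cnt_hc_le (gr_cnt hG hZn hball d hd hs)
  have hLW' := hK1 c1 hc1 K (W.flg.res d hd) hKK1 hT
  have h4 : (W.flg.res d hd).S.h (W.flg.res d hd).x ≤ 4 + κn := by
    refine h_x_le _ ((hgr (2 * K) le_rfl).trans (le_of_eq ?_))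
    push_cast
    field_simp
    ring
  have h5 := num_bg (F := W.flg.res d hd) (c1 := c1) (κ := κn) (by omega) (RegA.res R d hd) hκn0.le hT (by
    have e : (14 * (j:ℝ) + 2 * A) / K = 2 * (A + j) / K + 12 * j / K := by ring
    rw [e] at hsmall
    unfold SS at hnum
    linarith) hLW' h4 hgr
  have e3 : 3 * κn = κT := by rw [hκn]; ring
  rw [e3] at h5
  exact hTG c1 hc1 K (W.flg.res d hd) hKK0 (tgx_of hκT.le h5 hF (cts (by omega) (RegA.res R d hd)))

end Vale.Agent.P076.NS
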