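import Vale.Agent.P122.H610.Flags

/-!
# P076 / NS : flags above a set of flags of lower level (helper228)
-/

set_option autoImplicit false

namespace Vale.Agent.P076.NS

open Finset Vale.Agent.P122.C2 Vale.Agent.P122.H610

variable {C : ℝ} {n K : ℕ} {F : Amp C n K} {V : Val} {ρ : ℝ} {a : ℕ → ℝ} {J : ℕ → ℕ}

open Classical in
theorem card_fib_succ (h : V.Ok F ρ a J) {i : ℕ} (hi : i < K) (q : Nd × Z2 → Prop) :
    ((Fg V F.s n (i + 1)).filter fun f => q (f.1, par n f.2)).card =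
      ∑ g ∈ (Fg V F.s n i).filter q, (V.G i ((pth F.s n i g.1 g.2).sg n)).card := by
  have hk : ∀ j, j < i + 1 → ∀ S ∈ V.D F.s n j, V.G j (S.sg n) ⊆ kids n S.τ := fun j hj => h.kid j (by omega)
  have hm : ∀ f ∈ (Fg V F.s n (i + 1)).filter fun f => q (f.1, par n f.2), (f.1, par n f.2) ∈ (Fg V F.s n i).filter q := by
    intro f hf
    rw [mem_filter] at hf ⊢
    exact ⟨(Fg_par hk h.root hf.1).1, hf.2⟩
  rw [card_eq_sum_card_fiberwise hm]
  refine sum_congr rfl fun g hg => ?_
  rw [mem_filter] at hg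
  obtain ⟨g1, g2⟩ := Fg_D (fun j hj => hk j (by omega)) h.root hg.1
  refine card_bij' (fun f _ => f.2) (fun y _ => (g.1, y)) ?_ ?_ ?_ ?_
  · intro f hf
    simp only [mem_filter] at hf
    obtain ⟨⟨hf1, hf2⟩, hf3⟩ := hf
    have h1 := (Fg_par hk h.root hf1).2.1
    have e1 : f.1 = g.1 := by rw [← hf3]
    have e2 : par n f.2 = g.2 := by rw [← hf3]
    rw [e1, e2] at h1
    exact h1
  · intro y hy
    have h3 := h.kid i hi _ g1 hy
    rw [g2] at h3
    have h4 : par n y = g.2 := par_kids h3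
    simp only [mem_filter]
    refine ⟨⟨mem_Fg_succ.2 ⟨g.2, hg.1, hy⟩, ?_⟩, ?_⟩
    · rw [h4]
      exact hg.2
    · rw [h4]
  · intro f hf
    simp only [mem_filter] at hf
    have e1 : f.1 = g.1 := by rw [← hf.2]
    exact Prod.ext e1.symm rfl
  · intro y _
    rfl

open Classical in
/-- **number of flags above a set of flags** -/
theorem card_fib (h : V.Ok F ρ a J) {i : ℕ} (k : ℕ) (hk : i + k ≤ K) (q : Nd × Z2 → Prop) :
    ((Fg V F.s n i).filter q).card * 2 ^ (∑ c ∈ Ico i (i + k), J c) ≤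
        ((Fg V F.s n (i + k)).filter fun f => q (f.1, an n k f.2)).card ∧
      ((Fg V F.s n (i + k)).filter fun f => q (f.1, an n k f.2)).card ≤
        ((Fg V F.s n i).filter q).card * 2 ^ (∑ c ∈ Ico i (i + k), (J c + 1)) := by
  induction k with
  | zero => simp [an_zero]
  | succ k ih =>
    obtain ⟨h1, h2⟩ := ih (by omega)
    have e := card_fib_succ h (i := i + k) (by omega) fun f => q (f.1, an n k f.2)
    have e' : ((Fg V F.s n (i + (k + 1))).filter fun f => q (f.1, an n (k + 1) f.2)).card =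
        ∑ g ∈ (Fg V F.s n (i + k)).filter fun f => q (f.1, an n k f.2),
          (V.G (i + k) ((pth F.s n (i + k) g.1 g.2).sg n)).card := by
      rw [← e]
      congr 1
    have hs : ∀ f ∈ (Fg V F.s n (i + k)).filter fun f => q (f.1, an n k f.2),
        2 ^ J (i + k) ≤ (V.G (i + k) ((pth F.s n (i + k) f.1 f.2).sg n)).card ∧
        (V.G (i + k) ((pth F.s n (i + k) f.1 f.2).sg n)).card ≤ 2 ^ (J (i + k) + 1) := by
      intro f hf
      rw [mem_filter] at hf
      have := h.size (i + k) (by omega) _ (Fg_D (fun j hj => h.kid j (by omega)) h.root hf.1).1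
      exact ⟨this.1, this.2.le⟩
    rw [e']
    have s1 : ∑ c ∈ Ico i (i + (k + 1)), J c = ∑ c ∈ Ico i (i + k), J c + J (i + k) :=
      sum_Ico_succ_top (Nat.le_add_right i k) J
    have s2 : ∑ c ∈ Ico i (i + (k + 1)), (J c + 1) = ∑ c ∈ Ico i (i + k), (J c + 1) + (J (i + k) + 1) :=
      sum_Ico_succ_top (Nat.le_add_right i k) fun c => J c + 1
    rw [s1, s2, pow_add, pow_add, ← mul_assoc, ← mul_assoc]
    constructor
    · refine (Nat.mul_le_mul_right _ h1).trans ?_
      rw [← smul_eq_mul]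
      exact card_nsmul_le_sum _ _ _ fun f hf => (hs f hf).1
    · refine le_trans ?_ (Nat.mul_le_mul_right _ h2)
      rw [← smul_eq_mul]
      exact sum_le_card_nsmul _ _ _ fun f hf => (hs f hf).2

/-- every starting cell has a flag of every level -/
theorem card_fl_ge (h : V.Ok F ρ a J) {x : Nd} (hx : x ∈ V.X) :
    2 ^ (∑ c ∈ range K, J c) ≤ ((Fg V F.s n K).filter fun f => f.1 = x).card := by
  classical
  have h1 := (card_fib h (i := 0) K (by omega) fun f => f.1 = x).1
  simp only [Nat.zero_add, ← range_eq_Ico] at h1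
  have h2 : 1 ≤ ((Fg V F.s n 0).filter fun f => f.1 = x).card := by
    rw [Nat.one_le_iff_ne_zero, ← Nat.pos_iff_ne_zero, card_pos]
    exact ⟨(x, 0), mem_filter.2 ⟨mem_Fg_zero.2 ⟨hx, rfl⟩, rfl⟩⟩
  calc 2 ^ (∑ c ∈ range K, J c) = 1 * 2 ^ (∑ c ∈ range K, J c) := (one_mul _).symm
    _ ≤ ((Fg V F.s n 0).filter fun f => f.1 = x).card * 2 ^ (∑ c ∈ range K, J c) := Nat.mul_le_mul_right _ h2
    _ ≤ _ := by convert h1

end Vale.Agent.P076.NS
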