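import Vale.Agent.P076.NS.Defs
import Vale.Agent.P122.H425.Strip

/-!
# P076 / NS : modified amplitudes (helper228)

`mod F al j b` : the amplitudes of level `≥ j` are those of `F` (level `j` truncated at `b`), and at the levels `i < j` the
amplitude of a set of caps is `2 ^ (-n)` times the sum of the amplitudes of the allowed caps (relation `al i σ τ'`).
-/

set_option autoImplicit false

namespace Vale.Agent.P076.NS

open Finset Vale.Agent.P122.C2

theorem slp_mono {C C' : ℝ} {n K : ℕ} {s : ℕ → Z2 → Fin 2 → ℝ} (h : Slp C n K s) (hCC : C ≤ C') : Slp C' n K s where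
  bd := h.bd
  nest := fun i τ k hi hτ => (h.nest i τ k hi hτ).trans (div_le_div_of_nonneg_right hCC (by positivity))
  lip := fun i τ τ' k hi hτ hτ' => (h.lip i τ τ' k hi hτ hτ').trans
    (div_le_div_of_nonneg_right (mul_le_mul_of_nonneg_right hCC (by positivity)) (by positivity))
  colip := fun i τ τ' hi hτ hτ' => (h.colip i τ τ' hi hτ hτ').trans (mul_le_mul_of_nonneg_right hCC (by positivity))

/-- number of tubes with the same piece -/
theorem sg_card {n : ℕ} {σ : Nd} (U : Finset Nd) (hU : ∀ S ∈ U, S.sg n = σ) : U.card ≤ 2 ^ (2 * n) := by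
  have hp : (0:ℤ) < 2 ^ n := by positivity
  have h7 : U.card ≤ (Fintype.piFinset fun k : Fin 2 => Finset.Ico (2 ^ n * σ.o k) (2 ^ n * σ.o k + 2 ^ n)).card := by
    refine Finset.card_le_card_of_injOn (fun S => S.o) ?_ ?_
    · intro S hS
      rw [Finset.mem_coe] at hS
      rw [Finset.mem_coe, Fintype.mem_piFinset]
      intro k
      have g1 : S.o k / 2 ^ n = σ.o k := congrFun (congrArg Nd.o (hU S hS)) k
      have d1 := Int.mul_ediv_add_emod (S.o k) (2 ^ n)
      have d2 := Int.emod_nonneg (S.o k) hp.ne'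
      have d3 := Int.emod_lt_of_pos (S.o k) hp
      rw [g1] at d1
      show S.o k ∈ Finset.Ico (2 ^ n * σ.o k) (2 ^ n * σ.o k + 2 ^ n)
      rw [mem_Ico]
      constructor <;> omega
    · intro S hS S' hS' he
      rw [Finset.mem_coe] at hS hS'
      have t := (hU S hS).trans (hU S' hS').symm
      have t1' := congrArg Nd.τ t
      have t2' := congrArg Nd.T t
      have t1 : S.τ = S'.τ := t1'
      have t2 : S.T = S'.T := t2'
      exact Nd.ext t1 he t2
  refine h7.trans (le_of_eq ?_)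
  rw [Fintype.card_piFinset]
  have : ∀ k : Fin 2, (Finset.Ico (2 ^ n * σ.o k) (2 ^ n * σ.o k + 2 ^ n)).card = 2 ^ n := by
    intro k
    rw [Int.card_Ico]
    have : (2 ^ n * σ.o k + 2 ^ n - 2 ^ n * σ.o k : ℤ) = ((2 ^ n : ℕ) : ℤ) := by push_cast; ring
    rw [this, Int.toNat_natCast]
  simp only [this, Fin.prod_univ_two]
  rw [← pow_add]
  congr 1
  ring

section

variable {C : ℝ} {n K : ℕ} (F : Amp C n K) (al : ℕ → Nd → Z2 → Prop) (j : ℕ) (b : ℝ)

open Classical in
/-- `d = j - i` -/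
noncomputable def aux : ℕ → Nd → ℝ
  | 0, S => min (F.a j S) b
  | d + 1, S => ((2:ℝ) ^ n)⁻¹ *
      ∑ y ∈ (kids n S.τ).filter fun y => al (j - (d + 1)) (S.sg n) y, aux d ((S.sg n).ch F.s n (j - (d + 1)) y)

open Classical in
theorem aux_succ (d : ℕ) (S : Nd) : aux F al j b (d + 1) S = ((2:ℝ) ^ n)⁻¹ *
    ∑ y ∈ (kids n S.τ).filter fun y => al (j - (d + 1)) (S.sg n) y,
      aux F al j b d ((S.sg n).ch F.s n (j - (d + 1)) y) := rfl

/-- the amplitudes of the pieces -/
noncomputable def ta (i : ℕ) (S : Nd) : ℝ := if i ≤ j then aux F al j b (j - i) S else F.a i S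

open Classical in
/-- the amplitudes of the sets of pieces -/
noncomputable def tA (i : ℕ) (S : Nd) (G : Finset Z2) : ℝ :=
  if i < j then ((2:ℝ) ^ n)⁻¹ * ∑ y ∈ G.filter fun y => al i (S.sg n) y, ta F al j b (i + 1) ((S.sg n).ch F.s n i y)
  else F.A i S G

variable {F al j b}

theorem aux_nonneg (hb : 0 ≤ b) (d : ℕ) (S : Nd) : 0 ≤ aux F al j b d S := by
  induction d generalizing S with
  | zero => exact le_min (F.a0 _ _) hb
  | succ d ih =>
    rw [aux_succ]
    exact mul_nonneg (by positivity) (sum_nonneg fun y _ => ih _)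

theorem ta_nonneg (hb : 0 ≤ b) (i : ℕ) (S : Nd) : 0 ≤ ta F al j b i S := by
  unfold ta
  split_ifs
  · exact aux_nonneg hb _ _
  · exact F.a0 _ _

open Classical in
theorem tA_lt {i : ℕ} (hi : i < j) (S : Nd) (G : Finset Z2) : tA F al j b i S G =
    ((2:ℝ) ^ n)⁻¹ * ∑ y ∈ G.filter fun y => al i (S.sg n) y, ta F al j b (i + 1) ((S.sg n).ch F.s n i y) := by
  unfold tA
  rw [if_pos hi]

theorem tA_ge {i : ℕ} (hi : j ≤ i) (S : Nd) (G : Finset Z2) : tA F al j b i S G = F.A i S G := by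
  unfold tA
  rw [if_neg (by omega)]

theorem ta_gt {i : ℕ} (hi : j < i) (S : Nd) : ta F al j b i S = F.a i S := by
  unfold ta
  rw [if_neg (by omega)]

theorem ta_self (S : Nd) : ta F al j b j S = min (F.a j S) b := by
  unfold ta
  rw [if_pos le_rfl, Nat.sub_self]
  rfl

theorem ta_lt {i : ℕ} (hi : i < j) (S : Nd) : ta F al j b i S = tA F al j b i S (kids n S.τ) := by
  rw [tA_lt hi]
  obtain ⟨d, hd⟩ : ∃ d, j - i = d + 1 := ⟨j - i - 1, by omega⟩
  have e1 : j - (d + 1) = i := by omega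
  have e2 : j - (i + 1) = d := by omega
  unfold ta
  rw [if_pos hi.le, hd, aux_succ, e1]
  refine congrArg _ (sum_congr rfl fun y _ => ?_)
  rw [if_pos (by omega), e2]

theorem tA_nonneg (hb : 0 ≤ b) (i : ℕ) (S : Nd) (G : Finset Z2) : 0 ≤ tA F al j b i S G := by
  unfold tA
  split_ifs
  · exact mul_nonneg (by positivity) (sum_nonneg fun y _ => ta_nonneg hb _ _)
  · exact F.A0 _ _ _

theorem inv_pow_le_one : ((2:ℝ) ^ n)⁻¹ ≤ 1 := inv_le_one_of_one_le₀ (one_le_pow₀ (by norm_num))

/-- one square -/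
theorem tA_sq (hb : 0 ≤ b) {i : ℕ} (hi : i < j) {S σ : Nd} {G : Finset Z2} (hS : S.sg n = σ) (hG : G ⊆ kids n σ.τ) :
    tA F al j b i S G ^ 2 ≤ ∑ τ' ∈ G, ta F al j b (i + 1) (σ.ch F.s n i τ') ^ 2 := by
  classical
  rw [tA_lt hi, hS, mul_pow]
  have h1 : (∑ y ∈ G.filter (fun y => al i σ y), ta F al j b (i + 1) (σ.ch F.s n i y)) ^ 2 ≤
      (G.filter (fun y => al i σ y)).card * ∑ y ∈ G.filter (fun y => al i σ y), ta F al j b (i + 1) (σ.ch F.s n i y) ^ 2 :=
    sq_sum_le_card_mul_sum_sq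
  have h2 : ((G.filter (fun y => al i σ y)).card : ℝ) ≤ 2 ^ (2 * n) := by
    have : (G.filter (fun y => al i σ y)).card ≤ 2 ^ (2 * n) := by
      rw [← card_kids n σ.τ]
      exact card_le_card ((filter_subset _ _).trans hG)
    exact_mod_cast this
  have h3 : ∑ y ∈ G.filter (fun y => al i σ y), ta F al j b (i + 1) (σ.ch F.s n i y) ^ 2 ≤
      ∑ y ∈ G, ta F al j b (i + 1) (σ.ch F.s n i y) ^ 2 :=
    sum_le_sum_of_subset_of_nonneg (filter_subset _ _) fun _ _ _ => by positivity
  have h4 : (0:ℝ) ≤ ∑ y ∈ G, ta F al j b (i + 1) (σ.ch F.s n i y) ^ 2 := sum_nonneg fun _ _ => by positivity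
  have e : (((2:ℝ) ^ n)⁻¹) ^ 2 * 2 ^ (2 * n) = 1 := by
    rw [inv_pow, ← pow_mul, mul_comm n 2]
    exact inv_mul_cancel₀ (by positivity)
  calc (((2:ℝ) ^ n)⁻¹) ^ 2 * _ ≤ (((2:ℝ) ^ n)⁻¹) ^ 2 * (2 ^ (2 * n) *
        ∑ y ∈ G, ta F al j b (i + 1) (σ.ch F.s n i y) ^ 2) := by
        refine mul_le_mul_of_nonneg_left (h1.trans ?_) (by positivity)
        exact mul_le_mul h2 h3 (sum_nonneg fun _ _ => by positivity) (by positivity)
    _ = _ := by rw [← mul_assoc, e, one_mul]

theorem tA_empty {i : ℕ} (hi : i < j) (S : Nd) : tA F al j b i S ∅ = 0 := by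
  rw [tA_lt hi]
  simp

end

/-- **the modified amplitudes** -/
noncomputable def mod {C : ℝ} {n K : ℕ} (F : Amp C n K) (al : ℕ → Nd → Z2 → Prop) (j : ℕ) (b : ℝ) (hb : 0 ≤ b) (hC : 1 ≤ C)
    (hj : j < K) : Amp (8 * C) n K where
  s := F.s
  slp := slp_mono F.slp (by linarith)
  A := tA F al j b
  a := ta F al j b
  a0 := ta_nonneg hb
  A0 := tA_nonneg hb
  kid := by
    intro i S hi hS
    rcases lt_trichotomy i j with h | h | h
    · rw [ta_lt h]
    · subst h
      rw [ta_self, tA_ge le_rfl]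
      exact (min_le_left _ _).trans (F.kid i S hi hS)
    · rw [ta_gt h, tA_ge h.le]
      exact F.kid i S hi hS
  tri := by
    classical
    intro i S G G' hi hd
    rcases lt_or_ge i j with h | h
    · rw [tA_lt h, tA_lt h, tA_lt h, filter_union, sum_union]
      · rw [mul_add]
      · exact disjoint_filter_filter hd
    · rw [tA_ge h, tA_ge h, tA_ge h]
      exact F.tri i S G G' hi hd
  L1 := by
    classical
    intro i S G hi hS hG
    rcases lt_or_ge i j with h | h
    · rw [tA_lt h]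
      have h1 : ∑ y ∈ G.filter (fun y => al i (S.sg n) y), ta F al j b (i + 1) ((S.sg n).ch F.s n i y) ≤
          ∑ y ∈ G, ta F al j b (i + 1) ((S.sg n).ch F.s n i y) :=
        sum_le_sum_of_subset_of_nonneg (filter_subset _ _) fun _ _ _ => ta_nonneg hb _ _
      have h0 : 0 ≤ ∑ y ∈ G.filter (fun y => al i (S.sg n) y), ta F al j b (i + 1) ((S.sg n).ch F.s n i y) :=
        sum_nonneg fun _ _ => ta_nonneg hb _ _
      have h2 := inv_pow_le_one (n := n)
      have h3 : (0:ℝ) ≤ ((2:ℝ) ^ n)⁻¹ := by positivity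
      nlinarith
    · have h0 : ∀ τ', ta F al j b (i + 1) ((S.sg n).ch F.s n i τ') = F.a (i + 1) ((S.sg n).ch F.s n i τ') :=
        fun τ' => ta_gt (by omega) _
      simp only [h0]
      rw [tA_ge h]
      refine (F.L1 i S G hi hS hG).trans ?_
      exact mul_le_mul_of_nonneg_right (by linarith) (sum_nonneg fun _ _ => F.a0 _ _)
  B1 := by
    intro i σ G hi hσ hG U hU
    rcases lt_or_ge i j with h | h
    · have h1 : ∑ S ∈ U, tA F al j b i S G ^ 2 ≤ U.card • ∑ τ' ∈ G, ta F al j b (i + 1) (σ.ch F.s n i τ') ^ 2 :=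
        sum_le_card_nsmul _ _ _ fun S hS => tA_sq hb h (hU S hS) hG
      rw [nsmul_eq_mul] at h1
      refine h1.trans (mul_le_mul_of_nonneg_right ?_ (sum_nonneg fun _ _ => by positivity))
      have h2 : (U.card : ℝ) ≤ 2 ^ (2 * n) := by exact_mod_cast sg_card U hU
      have h3 : (0:ℝ) < 2 ^ (2 * n) := by positivity
      nlinarith
    · have h0 : ∀ τ', ta F al j b (i + 1) (σ.ch F.s n i τ') = F.a (i + 1) (σ.ch F.s n i τ') :=
        fun τ' => ta_gt (by omega) _
      simp only [h0, tA_ge h]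
      refine (F.B1 i σ G hi hσ hG U hU).trans ?_
      refine mul_le_mul_of_nonneg_right ?_ (sum_nonneg fun _ _ => by positivity)
      exact mul_le_mul_of_nonneg_right (by linarith) (by positivity)
  B2 := by
    intro i τ θ h1 hi hτ
    obtain ⟨ψ, p1, p2, p3, p4⟩ := F.B2 i τ θ h1 hi hτ
    refine ⟨ψ, p1.trans (by linarith), p2.trans (by linarith), fun τ' hτ' τ'' hτ'' => (p3 τ' hτ' τ'' hτ'').trans ?_, ?_⟩
    · exact mul_le_mul_of_nonneg_right (by linarith) (by positivity)
    · intro σ G k hσ hG hk U r hU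
      rcases lt_or_ge i j with h | h
      · rcases G.eq_empty_or_nonempty with rfl | ⟨t0, ht0⟩
        · rw [sum_eq_zero (fun S _ => by rw [tA_empty h]; norm_num)]
          simp
        · have hk1 : 1 ≤ k := by
            refine le_trans ?_ (hk (ψ 0 * t0 0 + ψ 1 * t0 1))
            rw [Nat.one_le_iff_ne_zero, ← Nat.pos_iff_ne_zero, card_pos]
            exact ⟨t0, mem_filter.2 ⟨ht0, by simp⟩⟩
          have hk1' : (1:ℝ) ≤ k := by exact_mod_cast hk1
          have h1 : ∑ S ∈ U, tA F al j b i S G ^ 2 ≤ U.card • ∑ τ' ∈ G, ta F al j b (i + 1) (σ.ch F.s n i τ') ^ 2 :=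
            sum_le_card_nsmul _ _ _ fun S hS => tA_sq hb h (hU S hS).1 (by rw [hσ]; exact hG)
          rw [nsmul_eq_mul] at h1
          refine h1.trans (mul_le_mul_of_nonneg_right ?_ (sum_nonneg fun _ _ => by positivity))
          have h2 : (U.card : ℝ) ≤ 5 * 2 ^ n := by
            exact_mod_cast Vale.Agent.P122.H425.strip_card U hU
          have h3 : (0:ℝ) < 2 ^ n := by positivity
          have h4 : 5 * (2:ℝ) ^ n ≤ 8 * C * 2 ^ n * k := by
            have h5 : (5:ℝ) ≤ 8 * C * k := by nlinarith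
            nlinarith
          linarith
      · have h0 : ∀ τ', ta F al j b (i + 1) (σ.ch F.s n i τ') = F.a (i + 1) (σ.ch F.s n i τ') :=
          fun τ' => ta_gt (by omega) _
        simp only [h0, tA_ge h]
        refine (p4 σ G k hσ hG hk U r hU).trans ?_
        refine mul_le_mul_of_nonneg_right ?_ (sum_nonneg fun _ _ => by positivity)
        refine mul_le_mul_of_nonneg_right ?_ (Nat.cast_nonneg _)
        exact mul_le_mul_of_nonneg_right (by linarith) (by positivity)
  supp := by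
    intro S hS
    rw [ta_gt hj] at hS
    obtain ⟨h1, h2, h3⟩ := F.supp S hS
    refine ⟨h1, h2, fun k => (h3 k).trans ?_⟩
    exact mul_le_mul_of_nonneg_right (by linarith) (by positivity)

section

variable {C : ℝ} {n K : ℕ} {F : Amp C n K} {al : ℕ → Nd → Z2 → Prop} {j : ℕ} {b : ℝ} {hb : 0 ≤ b} {hC : 1 ≤ C} {hj : j < K}

@[simp] theorem mod_s : (mod F al j b hb hC hj).s = F.s := rfl

@[simp] theorem mod_a (i : ℕ) (S : Nd) : (mod F al j b hb hC hj).a i S = ta F al j b i S := rfl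

@[simp] theorem mod_A (i : ℕ) (S : Nd) (G : Finset Z2) : (mod F al j b hb hC hj).A i S G = tA F al j b i S G := rfl

/-- upper bound -/
theorem ta_le (hb : 0 ≤ b) {i : ℕ} (hi : i ≤ j) (S : Nd) : ta F al j b i S ≤ 2 ^ ((j - i) * n) * b := by
  classical
  induction hd : j - i generalizing i S with
  | zero =>
    have : i = j := by omega
    subst this
    rw [ta_self]
    simp
  | succ d ih =>
    have hlt : i < j := by omega
    rw [ta_lt hlt, tA_lt hlt]
    have h1 : ∑ y ∈ (kids n S.τ).filter (fun y => al i (S.sg n) y), ta F al j b (i + 1) ((S.sg n).ch F.s n i y) ≤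
        ((kids n S.τ).filter (fun y => al i (S.sg n) y)).card • (2 ^ (d * n) * b) :=
      sum_le_card_nsmul _ _ _ fun y _ => ih (by omega) _ (by omega)
    have h2 : (((kids n S.τ).filter (fun y => al i (S.sg n) y)).card : ℝ) ≤ 2 ^ (2 * n) := by
      have : ((kids n S.τ).filter (fun y => al i (S.sg n) y)).card ≤ 2 ^ (2 * n) := by
        rw [← card_kids n S.τ]
        exact card_le_card (filter_subset _ _)
      exact_mod_cast this
    rw [nsmul_eq_mul] at h1
    have h3 : (0:ℝ) ≤ 2 ^ (d * n) * b := by positivity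
    calc ((2:ℝ) ^ n)⁻¹ * _ ≤ ((2:ℝ) ^ n)⁻¹ * (2 ^ (2 * n) * (2 ^ (d * n) * b)) := by
          refine mul_le_mul_of_nonneg_left (h1.trans ?_) (by positivity)
          exact mul_le_mul_of_nonneg_right h2 h3
      _ = 2 ^ ((d + 1) * n) * b := by
          have e1 : (2:ℝ) ^ (2 * n) = 2 ^ n * 2 ^ n := by rw [← pow_add]; congr 1; ring
          have e2 : (2:ℝ) ^ ((d + 1) * n) = 2 ^ n * 2 ^ (d * n) := by rw [← pow_add]; congr 1; ring
          rw [e1, e2]
          field_simp

end

end Vale.Agent.P076.NS
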