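import Vale.Agent.P076.NS.Thin
import Vale.Agent.P122.H428.V0

/-!
# P076 / NS : the first valid structure of a broad family (helper228)
-/

set_option autoImplicit false

namespace Vale.Agent.P076.NS

open Finset Vale.Agent.P122.C2 Vale.Agent.P122.H610

/-- the allowed caps: at the level `j - 1` those of the sets `G x` -/
def al0 (s : ℕ → Z2 → Fin 2 → ℝ) (n j : ℕ) (X : Finset Nd) (G : Nd → Finset Z2) (i : ℕ) (σ : Nd) (y : Z2) : Prop :=
  i + 1 = j → ∃ x ∈ X, y ∈ G x ∧ (pth s n i x (par n y)).sg n = σ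

theorem Fg_X {s : ℕ → Z2 → Fin 2 → ℝ} {n : ℕ} {V : Val} {i : ℕ} {f : Nd × Z2} (hf : f ∈ Fg V s n i) : f.1 ∈ V.X := by
  induction i generalizing f with
  | zero => exact (mem_Fg_zero.1 hf).1
  | succ i ih =>
    obtain ⟨y, h1, -⟩ := mem_Fg_succ.1 hf
    exact ih (f := (f.1, y)) h1

section

variable {C : ℝ} {n K j : ℕ} {F : Amp C n K} {X : Finset Nd} {G : Nd → Finset Z2} {b : ℝ}

/-- **lower bound** of the amplitude of level `0` -/
theorem ta0_ge (hb : 0 ≤ b) (hX : ∀ x ∈ X, x.τ = 0) (hcap : ∀ x ∈ X, ∀ y ∈ G x, Cap n j y)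
    (hamp : ∀ x ∈ X, ∀ y ∈ G x, b ≤ F.a j (pth F.s n j x y)) {x : Nd} (hx : x ∈ X) :
    ((G x).card : ℝ) * b ≤ 2 ^ (j * n) * ta F (al0 F.s n j X G) j b 0 x := by
  classical
  set al := al0 F.s n j X G with hal
  have key : ∀ i, i ≤ j → ∑ y ∈ (G x).image (an n (j - i)), ta F al j b i (pth F.s n i x y) ≤ 2 ^ (i * n) * ta F al j b 0 x := by
    intro i
    induction i with
    | zero =>
      intro _
      have h1 : (G x).image (an n (j - 0)) ⊆ {0} := by
        intro y hy
        obtain ⟨z, hz, rfl⟩ := mem_image.1 hy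
        rw [mem_singleton]
        exact cap_zero_eq (cap_an (Nat.zero_le j) (hcap x hx z hz))
      calc ∑ y ∈ (G x).image (an n (j - 0)), ta F al j b 0 (pth F.s n 0 x y)
          ≤ ∑ y ∈ ({0} : Finset Z2), ta F al j b 0 (pth F.s n 0 x y) :=
            sum_le_sum_of_subset_of_nonneg h1 fun _ _ _ => ta_nonneg hb _ _
        _ = ta F al j b 0 x := by rw [sum_singleton, pth_zero]
        _ = _ := by simp
    | succ i ih =>
      intro hi
      have h1 := ih (by omega)
      have hm : ∀ y' ∈ (G x).image (an n (j - (i + 1))), par n y' ∈ (G x).image (an n (j - i)) := by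
        intro y' hy'
        obtain ⟨z, hz, rfl⟩ := mem_image.1 hy'
        refine mem_image.2 ⟨z, hz, ?_⟩
        have e : j - i = (j - (i + 1)) + 1 := by omega
        rw [e, an_succ]
      rw [← sum_fiberwise_of_maps_to hm]
      have h2 : ∀ y ∈ (G x).image (an n (j - i)),
          ∑ y' ∈ ((G x).image (an n (j - (i + 1)))).filter (fun y' => par n y' = y), ta F al j b (i + 1) (pth F.s n (i + 1) x y') ≤
            2 ^ n * ta F al j b i (pth F.s n i x y) := by
        intro y hy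
        have hτ : (pth F.s n i x y).τ = y := by
          cases i with
          | zero =>
            obtain ⟨z, hz, rfl⟩ := mem_image.1 hy
            rw [pth_zero, hX x hx]
            exact (cap_zero_eq (cap_an (Nat.zero_le j) (hcap x hx z hz))).symm
          | succ i => rfl
        rw [ta_lt (by omega : i < j), tA_lt (by omega : i < j), hτ, ← mul_assoc, mul_inv_cancel₀ (by positivity), one_mul]
        have h3 : ∀ y' ∈ ((G x).image (an n (j - (i + 1)))).filter (fun y' => par n y' = y),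
            ta F al j b (i + 1) (pth F.s n (i + 1) x y') =
              ta F al j b (i + 1) (((pth F.s n i x y).sg n).ch F.s n i y') := by
          intro y' hy'
          rw [mem_filter] at hy'
          rw [pth_succ, hy'.2]
          rfl
        rw [sum_congr rfl h3]
        refine sum_le_sum_of_subset_of_nonneg ?_ fun _ _ _ => ta_nonneg hb _ _
        intro y' hy'
        rw [mem_filter] at hy'
        rw [mem_filter, mem_kids']
        refine ⟨hy'.2, fun hij => ⟨x, hx, ?_, by rw [hy'.2]⟩⟩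
        obtain ⟨z, hz, hz'⟩ := mem_image.1 hy'.1
        rw [← hij, Nat.sub_self, an_zero] at hz'
        rw [← hz']
        exact hz
      calc _ ≤ ∑ y ∈ (G x).image (an n (j - i)), 2 ^ n * ta F al j b i (pth F.s n i x y) := sum_le_sum h2
        _ = 2 ^ n * ∑ y ∈ (G x).image (an n (j - i)), ta F al j b i (pth F.s n i x y) := by rw [mul_sum]
        _ ≤ 2 ^ n * (2 ^ (i * n) * ta F al j b 0 x) := mul_le_mul_of_nonneg_left h1 (by positivity)
        _ = _ := by
            rw [← mul_assoc, ← pow_add]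
            congr 2
            ring
  have h := key j le_rfl
  have e : (G x).image (an n (j - j)) = G x := by
    ext y
    rw [mem_image]
    simp only [Nat.sub_self, an_zero, exists_eq_right]
  rw [e] at h
  refine le_trans (le_of_eq ?_) h
  rw [sum_congr rfl fun y hy => by rw [ta_self, min_eq_right (hamp x hx y hy)], sum_const, nsmul_eq_mul]

variable {al : ℕ → Nd → Z2 → Prop} {V : Val} {ρ : ℝ} {a : ℕ → ℝ} {J : ℕ → ℕ}

/-- **upper bound** of the amplitudes by the numbers of children -/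
theorem ta_le_J (hb : 0 ≤ b) (hC : 1 ≤ C) (hj : j < K) (h : V.Ok (mod F al j b hb hC hj) ρ a J) (hρ : 0 ≤ ρ) (d : ℕ) :
    ∀ i, i + d = j → ∀ S ∈ V.D F.s n i, ρ ^ d * (2 ^ (d * n) * ta F al j b i S) ≤ 2 ^ (∑ c ∈ Ico i j, (J c + 1)) * b := by
  classical
  induction d with
  | zero =>
    intro i hi S _
    have : i = j := by omega
    subst this
    simp only [Ico_self, sum_empty, zero_mul, pow_zero, one_mul]
    rw [ta_self]
    exact min_le_right _ _
  | succ d ih =>
    intro i hi S hS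
    have hij : i < j := by omega
    have h1 : ρ * ta F al j b i S ≤ tA F al j b i S (V.G i (S.sg n)) := h.sum i (by omega) S hS
    rw [tA_lt hij] at h1
    have h2 : ∑ y ∈ (V.G i (S.sg n)).filter (fun y => al i (S.sg n) y), ta F al j b (i + 1) ((S.sg n).ch F.s n i y) ≤
        ∑ y ∈ V.G i (S.sg n), ta F al j b (i + 1) ((S.sg n).ch F.s n i y) :=
      sum_le_sum_of_subset_of_nonneg (filter_subset _ _) fun _ _ _ => ta_nonneg hb _ _
    have h3 : ρ ^ d * (2 ^ (d * n) * ∑ y ∈ V.G i (S.sg n), ta F al j b (i + 1) ((S.sg n).ch F.s n i y)) ≤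
        (V.G i (S.sg n)).card • (2 ^ (∑ c ∈ Ico (i + 1) j, (J c + 1)) * b) := by
      rw [mul_sum, mul_sum]
      refine sum_le_card_nsmul _ _ _ fun y hy => ?_
      exact ih (i + 1) (by omega) _ (Val.mem_D_succ.2 ⟨S, hS, y, hy, rfl⟩)
    have h4 : ((V.G i (S.sg n)).card : ℝ) ≤ 2 ^ (J i + 1) := by
      have := (h.size i (by omega) S hS).2.le
      exact_mod_cast this
    rw [nsmul_eq_mul] at h3
    have e1 : ∑ c ∈ Ico i j, (J c + 1) = (J i + 1) + ∑ c ∈ Ico (i + 1) j, (J c + 1) := by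
      rw [Finset.sum_eq_sum_Ico_succ_bot hij]
    have h0 : (0:ℝ) ≤ ∑ y ∈ V.G i (S.sg n), ta F al j b (i + 1) ((S.sg n).ch F.s n i y) :=
      sum_nonneg fun _ _ => ta_nonneg hb _ _
    have e3 : (2:ℝ) ^ (∑ c ∈ Ico i j, (J c + 1)) = 2 ^ (J i + 1) * 2 ^ (∑ c ∈ Ico (i + 1) j, (J c + 1)) := by
      rw [e1, pow_add]
    rw [e3]
    have e2 : (2:ℝ) ^ ((d + 1) * n) = 2 ^ (d * n) * 2 ^ n := by rw [← pow_add]; congr 1; ring
    calc ρ ^ (d + 1) * (2 ^ ((d + 1) * n) * ta F al j b i S) = ρ ^ d * (2 ^ (d * n) * (2 ^ n * (ρ * ta F al j b i S))) := by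
          rw [e2]; ring
      _ ≤ ρ ^ d * (2 ^ (d * n) * (2 ^ n * (((2:ℝ) ^ n)⁻¹ * ∑ y ∈ V.G i (S.sg n), ta F al j b (i + 1) ((S.sg n).ch F.s n i y)))) := by
          have : ρ * ta F al j b i S ≤ ((2:ℝ) ^ n)⁻¹ * ∑ y ∈ V.G i (S.sg n), ta F al j b (i + 1) ((S.sg n).ch F.s n i y) :=
            h1.trans (mul_le_mul_of_nonneg_left h2 (by positivity))
          gcongr
      _ = ρ ^ d * (2 ^ (d * n) * ∑ y ∈ V.G i (S.sg n), ta F al j b (i + 1) ((S.sg n).ch F.s n i y)) := by
          rw [← mul_assoc ((2:ℝ) ^ n), mul_inv_cancel₀ (by positivity), one_mul]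
      _ ≤ _ := h3
      _ ≤ 2 ^ (J i + 1) * (2 ^ (∑ c ∈ Ico (i + 1) j, (J c + 1)) * b) := mul_le_mul_of_nonneg_right h4 (by positivity)
      _ = _ := by ring

/-- **reached caps are allowed** -/
theorem reach (hj1 : 1 ≤ j) (hj : j < K) (hb : 0 ≤ b) (hC : 1 ≤ C) (hX : ∀ x ∈ X, x.τ = 0)
    (hcap : ∀ x ∈ X, ∀ y ∈ G x, Cap n j y)
    (hth : ∀ x ∈ X, ∀ x' ∈ X, nr (Mth C j) (2 * j * n) x x' → x = x')
    (h : V.Ok (mod F al j b hb hC hj) ρ a J) (hVX : V.X ⊆ X)
    (hal : ∀ σ, ∀ y ∈ V.G (j - 1) σ, al0 F.s n j X G (j - 1) σ y) {f : Nd × Z2} (hf : f ∈ Fg V F.s n j) : f.2 ∈ G f.1 := by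
  obtain ⟨i, rfl⟩ : ∃ i, j = i + 1 := ⟨j - 1, by omega⟩
  simp only [Nat.add_sub_cancel] at hal
  have hk : ∀ c, c < i + 1 → ∀ S ∈ V.D F.s n c, V.G c (S.sg n) ⊆ kids n S.τ := fun c hc => h.kid c (by omega)
  obtain ⟨g1, g2, g3⟩ := Fg_par hk h.root hf
  obtain ⟨x', hx', hy', he⟩ := hal _ _ g2 rfl
  have hD := Fg_D (fun c hc => hk c (by omega)) h.root g1
  have hX1 : f.1 ∈ X := by
    exact hVX (Fg_X (f := (f.1, par n f.2)) g1)
  have hcy : Cap n i (par n f.2) := by
    have := cap_an (n := n) (i := i + 1) (c := i) (by omega) (hcap x' hx' _ hy')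
    rw [show i + 1 - i = 0 + 1 by omega, an_succ, an_zero] at this
    exact this
  have h3 := sig_near (C := C) F.slp (by omega : i ≤ K) (j := i + 1) rfl (hX x' hx') (hX _ hX1) hcy he
  rw [hth x' hx' _ hX1 h3] at hy'
  exact hy'

end

end Vale.Agent.P076.NS
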