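import Vale.Agent.P076.NS.Init

/-!
# P076 / NS : the first valid structure of a broad family, existence; spreadness of the flags (helper228)
-/

set_option autoImplicit false

namespace Vale.Agent.P076.NS

open Finset Vale.Agent.P122.C2 Vale.Agent.P122.H610

section

variable {C : ℝ} {n K j : ℕ} {F : Amp C n K} {X : Finset Nd} {G : Nd → Finset Z2} {b : ℝ}
  {V : Val} {ρ : ℝ} {a : ℕ → ℝ} {J : ℕ → ℕ}

/-- number of allowed caps at a cell -/
theorem size_le (hj : j < K) (hb : 0 < b) (hC : 1 ≤ C) (hX : ∀ x ∈ X, x.τ = 0)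
    (hcap : ∀ x ∈ X, ∀ y ∈ G x, Cap n j y) (hamp : ∀ x ∈ X, ∀ y ∈ G x, b ≤ F.a j (pth F.s n j x y))
    (h : V.Ok (mod F (al0 F.s n j X G) j b hb.le hC hj) ρ a J) (hρ : 0 ≤ ρ) (hVX : V.X ⊆ X) {x : Nd} (hx : x ∈ V.X) :
    ρ ^ j * (G x).card ≤ 2 ^ (∑ c ∈ range j, (J c + 1)) := by
  have h1 := ta0_ge hb.le hX hcap hamp (hVX hx)
  have h2 := ta_le_J hb.le hC hj h hρ j 0 (by omega) x hx
  rw [← range_eq_Ico] at h2
  have h3 : ρ ^ j * ((G x).card * b) ≤ 2 ^ (∑ c ∈ range j, (J c + 1)) * b :=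
    (mul_le_mul_of_nonneg_left h1 (pow_nonneg hρ j)).trans h2
  rw [← mul_assoc] at h3
  exact le_of_mul_le_mul_right h3 hb

open Classical in
/-- **spreadness of the flags** -/
theorem spr_fl (hj1 : 1 ≤ j) (hj : j < K) (hb : 0 < b) (hC : 1 ≤ C) (hX : ∀ x ∈ X, x.τ = 0)
    (hcap : ∀ x ∈ X, ∀ y ∈ G x, Cap n j y) (hamp : ∀ x ∈ X, ∀ y ∈ G x, b ≤ F.a j (pth F.s n j x y))
    (hth : ∀ x ∈ X, ∀ x' ∈ X, nr (Mth C j) (2 * j * n) x x' → x = x')
    (h : V.Ok (mod F (al0 F.s n j X G) j b hb.le hC hj) ρ a J) (hρ : 0 ≤ ρ) (hVX : V.X ⊆ X)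
    (hal : ∀ σ, ∀ y ∈ V.G (j - 1) σ, al0 F.s n j X G (j - 1) σ y) {x : Nd} (hx : x ∈ V.X) (p : Z2 → Prop) {δ : ℝ}
    (hp : (((G x).filter p).card : ℝ) ≤ δ * (G x).card) :
    (((Fg V F.s n K).filter fun f => f.1 = x ∧ p (an n (K - j) f.2)).card : ℝ) * ρ ^ j ≤
      δ * 2 ^ K * ((Fg V F.s n K).filter fun f => f.1 = x).card := by
  have e1 : j + (K - j) = K := by omega
  have h1 := (card_fib h (i := j) (K - j) (by omega) fun f => f.1 = x ∧ p f.2).2
  rw [e1] at h1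
  simp only [mod_s] at h1
  have h2 : ((Fg V F.s n j).filter fun f => f.1 = x ∧ p f.2).card ≤ ((G x).filter p).card := by
    refine card_le_card_of_injOn (fun f => f.2) ?_ ?_
    · intro f hf
      rw [Finset.mem_coe, mem_filter] at hf
      rw [Finset.mem_coe, mem_filter]
      have := reach hj1 hj hb.le hC hX hcap hth h hVX hal hf.1
      rw [hf.2.1] at this
      exact ⟨this, hf.2.2⟩
    · intro f hf g hg e
      rw [Finset.mem_coe, mem_filter] at hf hg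
      exact Prod.ext (hf.2.1.trans hg.2.1.symm) e
  have h3 := card_fl_ge h hx
  simp only [mod_s] at h3
  have h4 := size_le hj hb hC hX hcap hamp h hρ hVX hx
  have hδ : 0 ≤ δ * (G x).card := le_trans (Nat.cast_nonneg _) hp
  have h1' : (((Fg V F.s n K).filter fun f => f.1 = x ∧ p (an n (K - j) f.2)).card : ℝ) ≤
      (((G x).filter p).card : ℝ) * 2 ^ (∑ c ∈ Ico j K, (J c + 1)) := by
    have : ((Fg V F.s n K).filter fun f => f.1 = x ∧ p (an n (K - j) f.2)).card ≤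
      ((G x).filter p).card * 2 ^ (∑ c ∈ Ico j K, (J c + 1)) := by
      refine (le_of_eq ?_).trans (h1.trans (Nat.mul_le_mul_right _ ((le_of_eq ?_).trans h2)))
      · congr
      · congr
    exact_mod_cast this
  have h3' : (2:ℝ) ^ (∑ c ∈ range K, J c) ≤ (((Fg V F.s n K).filter fun f => f.1 = x).card : ℝ) := by
    have : 2 ^ (∑ c ∈ range K, J c) ≤ ((Fg V F.s n K).filter fun f => f.1 = x).card := by convert h3
    exact_mod_cast this
  have e2 : (2:ℝ) ^ (∑ c ∈ range j, (J c + 1)) * 2 ^ (∑ c ∈ Ico j K, (J c + 1)) = 2 ^ K * 2 ^ (∑ c ∈ range K, J c) := by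
    rw [← pow_add, ← pow_add, sum_range_add_sum_Ico _ hj.le, sum_add_distrib]
    simp only [sum_const, card_range, smul_eq_mul, mul_one]
    rw [add_comm]
  have hρj : 0 ≤ ρ ^ j := pow_nonneg hρ j
  have hG : (0:ℝ) < (G x).card ∨ (G x).card = 0 := by
    rcases Nat.eq_zero_or_pos (G x).card with h0 | h0
    · exact Or.inr h0
    · exact Or.inl (by exact_mod_cast h0)
  rcases hG with hG | hG
  · have hδ0 : 0 ≤ δ := by
      by_contra hcon
      push Not at hcon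
      nlinarith
    calc _ ≤ ((((G x).filter p).card : ℝ) * 2 ^ (∑ c ∈ Ico j K, (J c + 1))) * ρ ^ j := mul_le_mul_of_nonneg_right h1' hρj
      _ ≤ ((δ * (G x).card) * 2 ^ (∑ c ∈ Ico j K, (J c + 1))) * ρ ^ j := by gcongr
      _ = δ * (ρ ^ j * (G x).card) * 2 ^ (∑ c ∈ Ico j K, (J c + 1)) := by ring
      _ ≤ δ * 2 ^ (∑ c ∈ range j, (J c + 1)) * 2 ^ (∑ c ∈ Ico j K, (J c + 1)) := by gcongr
      _ = δ * 2 ^ K * 2 ^ (∑ c ∈ range K, J c) := by rw [mul_assoc, e2]; ring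
      _ ≤ _ := by gcongr
  · -- impossible
    exfalso
    obtain ⟨y, hy, -⟩ := extend h (i := 0) (k := j) (by omega) (f := (x, 0)) (mem_Fg_zero.2 ⟨hx, rfl⟩)
    rw [Nat.zero_add] at hy
    have := reach hj1 hj hb.le hC hX hcap hth h hVX hal hy
    rw [card_eq_zero] at hG
    rw [hG] at this
    exact absurd this (notMem_empty _)

/-- the number of classes -/
noncomputable def NN (C : ℝ) (n K : ℕ) : ℝ := ((Vale.Agent.P122.H428.nq (8 * C) n K * (2 * n + 1) : ℕ) : ℝ) ^ K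

theorem one_le_nq (C : ℝ) (n K : ℕ) : 1 ≤ Vale.Agent.P122.H428.nq C n K := by
  unfold Vale.Agent.P122.H428.nq
  omega

theorem one_le_NN (C : ℝ) (n K : ℕ) : 1 ≤ NN C n K := by
  unfold NN
  refine one_le_pow₀ ?_
  have := one_le_nq (8 * C) n K
  have : 1 ≤ Vale.Agent.P122.H428.nq (8 * C) n K * (2 * n + 1) := Nat.one_le_iff_ne_zero.2 (by positivity)
  exact_mod_cast this

/-- **existence of the first valid structure** -/
theorem exists_init (hj1 : 1 ≤ j) (hj : j < K) (hC : 1 ≤ C) (F : Amp C n K) {Q : ℝ} (hQ0 : 0 < Q)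
    (hQ : ∀ U : Finset Nd, ∑ S ∈ U, F.a K S ^ 2 ≤ Q) (X : Finset Nd) (G : Nd → Finset Z2) {b : ℝ} (hb : 0 < b)
    (hX : ∀ x ∈ X, x.τ = 0 ∧ 0 ≤ x.T ∧ x.T < 2 ^ (2 * K * n)) (hne : ∀ x ∈ X, (G x).Nonempty)
    (hcap : ∀ x ∈ X, ∀ y ∈ G x, Cap n j y) (hamp : ∀ x ∈ X, ∀ y ∈ G x, b ≤ F.a j (pth F.s n j x y))
    (hbig : 2 * (2 * (8 * C + 3 * K) + 1) ^ 2 * 2 ^ (3 * (j * n)) * Real.sqrt Q ^ 3 ≤ b ^ 3 * X.card) :
    ∃ (V : Val) (a : ℕ → ℝ) (J : ℕ → ℕ), V.X ⊆ X ∧ V.X.Nonempty ∧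
      V.Ok (mod F (al0 F.s n j X G) j b hb.le hC hj) (1 / (2 * NN C n K) / (los 2 n j : ℕ)) a J ∧
      (∀ σ, ∀ y ∈ V.G (j - 1) σ, al0 F.s n j X G (j - 1) σ y) ∧
      (X.card : ℝ) ≤ 2 * NN C n K * Vale.Agent.P122.H428.nq (8 * C) n K * 2 ^ (6 * (j * n)) * (los 2 n j : ℕ) * V.X.card := by
  classical
  set F' := mod F (al0 F.s n j X G) j b hb.le hC hj with hF'
  have hC' : 1 ≤ 8 * C := by linarith
  have hKa : ∀ S, F'.a K S = F.a K S := fun S => ta_gt hj S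
  have hμ : ∀ S, F'.a K S ≤ Real.sqrt Q := by
    intro S
    rw [hKa]
    refine Real.le_sqrt_of_sq_le ?_
    have := hQ {S}
    simpa using this
  have hμ0 : 0 < Real.sqrt Q := Real.sqrt_pos.2 hQ0
  obtain ⟨V, a, J, g1, g2, g3, g4, b0, g5, g6⟩ := Vale.Agent.P122.H428.exists_val F' hC' hμ hμ0 X hX
  have g3' : V.Ok F' (1 / (2 * NN C n K)) a J := g3
  have hN1 := one_le_NN C n K
  have hq1 : (1:ℝ) ≤ Vale.Agent.P122.H428.nq (8 * C) n K := by exact_mod_cast one_le_nq (8 * C) n K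
  have hXne : (0:ℝ) < X.card := by
    have h1 : (0:ℝ) < 2 * (2 * (8 * C + 3 * K) + 1) ^ 2 * 2 ^ (3 * (j * n)) * Real.sqrt Q ^ 3 := by positivity
    have h2 : (0:ℝ) < b ^ 3 * X.card := lt_of_lt_of_le h1 hbig
    have hb3 : 0 < b ^ 3 := by positivity
    exact pos_of_mul_pos_right h2 hb3.le
  -- lower bound of the sum
  have hlow : ∀ x ∈ X, b / 2 ^ (j * n) ≤ F'.a 0 x := by
    intro x hx
    have h1 := ta0_ge hb.le (fun x hx => (hX x hx).1) hcap hamp hx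
    have h2 : (1:ℝ) ≤ (G x).card := by exact_mod_cast (hne x hx).card_pos
    rw [div_le_iff₀ (by positivity)]
    have h3 : F'.a 0 x = ta F (al0 F.s n j X G) j b 0 x := rfl
    rw [h3, mul_comm]
    nlinarith
  have hup : ∀ x, F'.a 0 x ≤ 2 ^ (j * n) * b := by
    intro x
    have := ta_le (F := F) (al := al0 F.s n j X G) (j := j) hb.le (Nat.zero_le j) x
    rw [Nat.sub_zero] at this
    exact this
  have hsum : (X.card : ℝ) * (b / 2 ^ (j * n)) ^ 3 ≤ ∑ x ∈ X, F'.a 0 x ^ 3 := by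
    rw [← nsmul_eq_mul]
    refine card_nsmul_le_sum _ _ _ fun x hx => ?_
    exact pow_le_pow_left₀ (by positivity) (hlow x hx) 3
  have hsumV : ∑ x ∈ V.X, F'.a 0 x ^ 3 ≤ (V.X.card : ℝ) * (2 ^ (j * n) * b) ^ 3 := by
    rw [← nsmul_eq_mul]
    refine sum_le_card_nsmul _ _ _ fun x _ => ?_
    exact pow_le_pow_left₀ (F'.a0 _ _) (hup x) 3
  have e3 : (X.card : ℝ) * (b / 2 ^ (j * n)) ^ 3 = b ^ 3 * X.card / 2 ^ (3 * (j * n)) := by
    rw [div_pow, ← pow_mul, mul_comm (j * n) 3]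
    ring
  have hmain : b ^ 3 * X.card / 2 ^ (3 * (j * n)) ≤
      2 * (NN C n K * Vale.Agent.P122.H428.nq (8 * C) n K * ((V.X.card : ℝ) * (2 ^ (j * n) * b) ^ 3)) := by
    have h1 : (2 * (8 * C + 3 * K) + 1) ^ 2 * Real.sqrt Q ^ 3 ≤ b ^ 3 * X.card / 2 ^ (3 * (j * n)) / 2 := by
      rw [le_div_iff₀ (by norm_num), le_div_iff₀ (by positivity)]
      linarith
    have h2 : NN C n K * Vale.Agent.P122.H428.nq (8 * C) n K * ∑ x ∈ V.X, F'.a 0 x ^ 3 ≤
        NN C n K * Vale.Agent.P122.H428.nq (8 * C) n K * ((V.X.card : ℝ) * (2 ^ (j * n) * b) ^ 3) :=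
      mul_le_mul_of_nonneg_left hsumV (by positivity)
    have h3 : ((Vale.Agent.P122.H428.nq (8 * C) n K * (2 * n + 1) : ℕ) : ℝ) ^ K *
      Vale.Agent.P122.H428.nq (8 * C) n K * ∑ x ∈ V.X, F'.a 0 x ^ 3 =
        NN C n K * Vale.Agent.P122.H428.nq (8 * C) n K * ∑ x ∈ V.X, F'.a 0 x ^ 3 := rfl
    rw [h3] at g4
    rw [← e3] at h1 ⊢
    linarith
  have hcard : (X.card : ℝ) ≤ 2 * NN C n K * Vale.Agent.P122.H428.nq (8 * C) n K * 2 ^ (6 * (j * n)) * V.X.card := by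
    have hb3 : 0 < b ^ 3 := by positivity
    rw [div_le_iff₀ (by positivity)] at hmain
    have e4 : ((2:ℝ) ^ (j * n) * b) ^ 3 = 2 ^ (3 * (j * n)) * b ^ 3 := by
      rw [mul_pow, ← pow_mul, mul_comm (j * n) 3]
    have e5 : (2:ℝ) ^ (6 * (j * n)) = 2 ^ (3 * (j * n)) * 2 ^ (3 * (j * n)) := by rw [← pow_add]; congr 1; ring
    rw [e4] at hmain
    rw [e5]
    refine le_of_mul_le_mul_left ?_ hb3
    linarith
  -- the allowed edges
  have hρ0 : (0:ℝ) < 1 / (2 * NN C n K) := by positivity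
  obtain ⟨V', J', u, k1, k2, k3, k4, k5, k6⟩ := eref F' (i := j - 1) (by omega) V _ a J g3' hρ0 (fun _ => 1) 2 (by norm_num)
    (fun σ y => if al0 F.s n j X G (j - 1) σ y then 0 else 1)
  have ej : j - 1 + 1 = j := by omega
  rw [ej] at k2 k6
  simp only [sum_const, nsmul_eq_mul, mul_one] at k6
  have hlos : (0:ℝ) < (los 2 n j : ℕ) := los_cast_pos (by norm_num)
  have hV'ne : V'.X.Nonempty := by
    rw [nonempty_iff_ne_empty]
    intro h0
    rw [h0] at k6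
    simp only [card_empty, Nat.cast_zero, mul_zero] at k6
    have hV0 : (V.X.card : ℝ) = 0 := le_antisymm k6 (Nat.cast_nonneg _)
    rw [hV0, mul_zero] at hcard
    linarith
  have hfin : (X.card : ℝ) ≤
      2 * NN C n K * Vale.Agent.P122.H428.nq (8 * C) n K * 2 ^ (6 * (j * n)) * (los 2 n j : ℕ) * V'.X.card := by
    calc (X.card : ℝ) ≤ 2 * NN C n K * Vale.Agent.P122.H428.nq (8 * C) n K * 2 ^ (6 * (j * n)) * V.X.card := hcard
      _ ≤ 2 * NN C n K * Vale.Agent.P122.H428.nq (8 * C) n K * 2 ^ (6 * (j * n)) * ((los 2 n j : ℕ) * V'.X.card) := by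
          refine mul_le_mul_of_nonneg_left k6 (by positivity)
      _ = _ := by ring
  refine ⟨V', a, J', k1.1.trans g1, hV'ne, k2, ?_, hfin⟩
  -- the label is `allowed`
  by_cases hu : u = 0
  · intro σ y hy
    have h1 := k3 σ y hy
    rw [hu] at h1
    by_contra hcon
    rw [if_neg hcon] at h1
    exact absurd h1 (by decide)
  · exfalso
    obtain ⟨x, hx⟩ := hV'ne
    obtain ⟨y, hy, -⟩ := extend k2 (i := 0) (k := j - 1) (by omega) (f := (x, 0)) (mem_Fg_zero.2 ⟨hx, rfl⟩)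
    rw [Nat.zero_add] at hy
    have hD := (Fg_D (fun c hc => k2.kid c (by omega)) k2.root hy).1
    set S := pth F'.s n (j - 1) x y with hS
    have h1 := k2.sum (j - 1) (by omega) S hD
    have h2 : F'.A (j - 1) S (V'.G (j - 1) (S.sg n)) = 0 := by
      show tA F (al0 F.s n j X G) j b (j - 1) S (V'.G (j - 1) (S.sg n)) = 0
      rw [tA_lt (by omega : j - 1 < j)]
      have h3 : (V'.G (j - 1) (S.sg n)).filter (fun y => al0 F.s n j X G (j - 1) (S.sg n) y) = ∅ := by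
        rw [filter_eq_empty_iff]
        intro y hy hcon
        have h4 := k3 _ y hy
        rw [if_pos hcon] at h4
        exact hu h4.symm
      rw [h3, sum_empty, mul_zero]
    rw [h2] at h1
    have h3 := (k2.amp (j - 1) (by omega) S hD).1
    have h4 := k2.apos (j - 1) (by omega)
    have h5 : 0 < 1 / (2 * NN C n K) / (los 2 n j : ℕ) := by positivity
    have h6 : 0 < F'.a (j - 1) S := by linarith
    have : 0 < 1 / (2 * NN C n K) / (los 2 n j : ℕ) * F'.a (j - 1) S := mul_pos h5 h6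
    linarith

end

end Vale.Agent.P076.NS
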