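import Vale.Agent.P076.NS.Seq
import Vale.Agent.P122.E.RGC

/-!
# P076 / NS : the numbers of a regular broad family (helper228)
-/

set_option autoImplicit false

namespace Vale.Agent.P076.NS

open Filter Topology Finset Vale.Agent.P127 Vale.Agent.P127.Stk Vale.Agent.P127.U Vale.Agent.P127.U.Sys Vale.Agent.P122.C2
  Vale.Agent.P122.E Vale.Agent.P122.H610 Vale.Agent.P122.H563

variable {K : ℕ} {Z : CS K}

/-- energy of the last level -/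
theorem aK_le (W : VS Z) {Q : ℕ → ℝ} (hen : ∀ i (U : Finset Nd), ∑ S ∈ U, (Z.F i).a K S ^ 2 ≤ Q i) (i : ℕ) :
    (((W.V i).D (Z.F i).s (Z.n i) K).card : ℝ) * W.a i K ^ 2 ≤ Q i := by
  refine le_trans ?_ (hen i ((W.V i).D (Z.F i).s (Z.n i) K))
  rw [← nsmul_eq_mul]
  refine card_nsmul_le_sum _ _ _ fun S hS => ?_
  exact pow_le_pow_left₀ ((W.ok i).apos K le_rfl).le ((W.ok i).amp K le_rfl S hS).1 2

/-- exponent of `β² / Q` -/
noncomputable def SS (K : ℕ) (J θ H : ℕ → ℝ) : ℝ := ∑ c ∈ range K, J c + 2 * ∑ c ∈ range K, θ c - H K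

theorem lim_beta {j : ℕ} {A c1 C : ℝ} {D : ℕ → Dt K j A c1 C} {W : VS Z} (hG : Good D W) {H e : ℕ → ℝ}
    {B : ℕ → W.sys.BX} {kk jj : ℕ → ℕ → ℕ} (R : RegA W.flg W.Jn (thn W) H e B kk jj)
    (hen : ∀ i (U : Finset Nd), ∑ S ∈ U, (Z.F i).a K S ^ 2 ≤ (D i).Q) (ε : ℝ) (hε : 0 < ε) :
    ∀ᶠ i in (uf : Filter ℕ), (D i).β ^ 2 ≤ 2 ^ ((2 * (A + j) / K + SS K W.Jn (thn W) H + ε) * (K * Z.n i)) * (D i).Q := by
  have h0 : ∀ᶠ i in (uf : Filter ℕ), 0 ≤ W.a i 0 := Eventually.of_forall fun i => ((W.ok i).apos 0 (Nat.zero_le _)).le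
  have hε5 : 0 < ε / 5 := by positivity
  filter_upwards [hG.amp (ε / 5) hε5, amp_tel (a := W.a) (n := Z.n) h0 (fun c hc ε hε => amp_thn W hc ε hε) K le_rfl (ε / 5) hε5,
    card_D_ge W le_rfl (R.Nu K le_rfl) (ε / 5) hε5] with i h1 h2 h3
  have hL : Z.L i = K * Z.n i := Z.L_eq i
  rw [hL] at h1
  set L : ℝ := (K:ℝ) * Z.n i with hL'
  have ha0 := (W.ok i).apos 0 (Nat.zero_le _)
  have haK := (W.ok i).apos K le_rfl
  have hβ := (D i).β0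
  have h4 := aK_le W hen i
  have h5 : (D i).β ≤ 2 ^ (((A + j) / K + ε / 5) * L) * (2 ^ ((nM W.Jn K / 2 + ∑ c ∈ range K, thn W c + ε / 5) * L) * W.a i K) :=
    h1.trans (mul_le_mul_of_nonneg_left h2 (by positivity))
  have h6 : (D i).β ^ 2 ≤ (2 ^ (((A + j) / K + ε / 5) * L) * (2 ^ ((nM W.Jn K / 2 + ∑ c ∈ range K, thn W c + ε / 5) * L) * W.a i K)) ^ 2 :=
    pow_le_pow_left₀ hβ.le h5 2
  have h7 : (2:ℝ) ^ ((H K - ε / 5) * L) * W.a i K ^ 2 ≤ (D i).Q := le_trans (mul_le_mul_of_nonneg_right h3 (by positivity)) h4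
  have h8 : W.a i K ^ 2 ≤ 2 ^ (-((H K - ε / 5) * L)) * (D i).Q := by
    have e : (2:ℝ) ^ (-((H K - ε / 5) * L)) * 2 ^ ((H K - ε / 5) * L) = 1 := by
      rw [← Real.rpow_add (by norm_num)]
      simp
    calc W.a i K ^ 2 = 2 ^ (-((H K - ε / 5) * L)) * (2 ^ ((H K - ε / 5) * L) * W.a i K ^ 2) := by rw [← mul_assoc, e, one_mul]
      _ ≤ _ := mul_le_mul_of_nonneg_left h7 (by positivity)
  have e2 : ∀ x : ℝ, ((2:ℝ) ^ x) ^ 2 = 2 ^ (2 * x) := fun x => by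
    rw [← Real.rpow_natCast, ← Real.rpow_mul (by norm_num)]
    congr 1
    push_cast
    ring
  calc (D i).β ^ 2 ≤ (2 ^ (((A + j) / K + ε / 5) * L) * (2 ^ ((nM W.Jn K / 2 + ∑ c ∈ range K, thn W c + ε / 5) * L) * W.a i K)) ^ 2 := h6
    _ = 2 ^ (2 * (((A + j) / K + ε / 5) * L)) * 2 ^ (2 * ((nM W.Jn K / 2 + ∑ c ∈ range K, thn W c + ε / 5) * L)) * W.a i K ^ 2 := by
        rw [mul_pow, mul_pow, e2, e2]
        ring
    _ ≤ 2 ^ (2 * (((A + j) / K + ε / 5) * L)) * 2 ^ (2 * ((nM W.Jn K / 2 + ∑ c ∈ range K, thn W c + ε / 5) * L)) *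
          (2 ^ (-((H K - ε / 5) * L)) * (D i).Q) := mul_le_mul_of_nonneg_left h8 (by positivity)
    _ = _ := by
        rw [← mul_assoc, ← Real.rpow_add (by norm_num), ← Real.rpow_add (by norm_num)]
        congr 2
        unfold SS nM
        ring

theorem lim_card {j : ℕ} {A c1 C : ℝ} {D : ℕ → Dt K j A c1 C} {W : VS Z} (hG : Good D W) {J θ H e : ℕ → ℝ}
    {B : ℕ → W.sys.BX} {kk jj : ℕ → ℕ → ℕ} (R : RegA W.flg J θ H e B kk jj) (ε : ℝ) (hε : 0 < ε) :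
    ∀ᶠ i in (uf : Filter ℕ), ((D i).X.card : ℝ) ≤ 2 ^ ((H 0 + 12 * j / K + ε) * (K * Z.n i)) := by
  filter_upwards [hG.card (ε / 2) (half_pos hε), card_X_le W R.x1 (ε / 2) (half_pos hε)] with i h1 h2
  have hL : Z.L i = K * Z.n i := Z.L_eq i
  rw [hL] at h1
  calc ((D i).X.card : ℝ) ≤ 2 ^ ((12 * j / K + ε / 2) * (K * Z.n i)) * (W.V i).X.card := h1
    _ ≤ 2 ^ ((12 * j / K + ε / 2) * (K * Z.n i)) * 2 ^ ((H 0 + ε / 2) * (K * Z.n i)) := by gcongr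
    _ = _ := by
        rw [← Real.rpow_add (by norm_num)]
        congr 1
        ring

/-- comparison of exponents -/
theorem exp_le (Z : CS K) {a b : ℝ} {q : ℕ → ℝ} (hq : ∀ i, 0 < q i)
    (h : ∀ ε : ℝ, 0 < ε → ∀ᶠ i in (uf : Filter ℕ), (2:ℝ) ^ (a * (K * Z.n i)) * q i ≤ 2 ^ ((b + ε) * (K * Z.n i)) * q i) : a ≤ b := by
  refine le_of_forall_pos_le_add fun ε hε => ?_
  obtain ⟨i, h1, h2⟩ := ((h ε hε).and Z.L_pos).exists
  rw [Z.L_eq] at h2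
  have h3 := le_of_mul_le_mul_right h1 (hq i)
  rw [Real.rpow_le_rpow_left_iff (by norm_num)] at h3
  exact le_of_mul_le_mul_right h3 h2

end Vale.Agent.P076.NS
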