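import Vale.Agent.P076.NS.Seq0
import Vale.Agent.P122.H428.RG0Seq
import Vale.Agent.P122.E.RG

/-!
# P076 / NS : sequences of valid structures of a broad family (helper228)
-/

set_option autoImplicit false

namespace Vale.Agent.P076.NS

open Filter Topology Finset Vale.Agent.P127 Vale.Agent.P127.Stk Vale.Agent.P127.U Vale.Agent.P127.U.Sys
  Vale.Agent.P122.C2 Vale.Agent.P122.E Vale.Agent.P122.H610

theorem los_le (n j : ℕ) : ((los 2 n j : ℕ) : ℝ) ≤ 2 * 2 ^ j * ((n : ℝ) + 1) ^ j := by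
  unfold los
  push_cast
  have h1 : (2 * (n:ℝ) + 1) ≤ 2 * ((n:ℝ) + 1) := by linarith
  have h2 : (2 * (n:ℝ) + 1) ^ j ≤ (2 * ((n:ℝ) + 1)) ^ j := pow_le_pow_left₀ (by positivity) h1 j
  rw [mul_pow] at h2
  nlinarith

/-- polynomial losses -/
theorem loss_ev (C : ℝ) (K j : ℕ) {ε : ℝ} (hε : 0 < ε) : ∀ᶠ n : ℕ in atTop,
    2 * NN C n K * Vale.Agent.P122.H428.nq (8 * C) n K * (los 2 n j : ℕ) ≤ (2:ℝ) ^ (ε * n) := by
  set A : ℝ := ((2 * (K * Nat.clog 2 ⌈2 * (8 * C) ^ 2⌉₊ + 6 * K + 1) : ℕ) : ℝ) ^ (K + 1) with hA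
  have hr : (1:ℝ) < 2 ^ ε := Real.one_lt_rpow (by norm_num) hε
  filter_upwards [Vale.Agent.P122.H428.poly_exp (2 * A * (2 * 2 ^ j)) (2 * K + 1 + j) hr] with n hn
  have h1 := Vale.Agent.P122.H428.loss_le (8 * C) n K
  have h2 := los_le n j
  have h0 : (0:ℝ) ≤ (los 2 n j : ℕ) := Nat.cast_nonneg _
  have hA0 : 0 ≤ A := by rw [hA]; positivity
  calc 2 * NN C n K * Vale.Agent.P122.H428.nq (8 * C) n K * (los 2 n j : ℕ)
      = 2 * (((Vale.Agent.P122.H428.nq (8 * C) n K * (2 * n + 1) : ℕ) : ℝ) ^ K * Vale.Agent.P122.H428.nq (8 * C) n K) *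
          (los 2 n j : ℕ) := by unfold NN; ring
    _ ≤ 2 * (A * ((n : ℝ) + 1) ^ (2 * K + 1)) * (2 * 2 ^ j * ((n : ℝ) + 1) ^ j) := by
        refine mul_le_mul (mul_le_mul_of_nonneg_left h1 (by norm_num)) h2 h0 (by positivity)
    _ = 2 * A * (2 * 2 ^ j) * ((n : ℝ) + 1) ^ (2 * K + 1 + j) := by rw [pow_add _ (2 * K + 1) j]; ring
    _ ≤ _ := hn
    _ = _ := by rw [← Real.rpow_natCast, ← Real.rpow_mul (by norm_num)]

/-- what the refinements inherit -/
structure Good {K j : ℕ} {A c1 C : ℝ} (D : ℕ → Dt K j A c1 C) {Z : CS K} (W : VS Z) : Prop where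
  spr : ∀ ε : ℝ, 0 < ε → ∀ᶠ i in (uf : Filter ℕ), ∀ (x : Nd), x ∈ (W.V i).X → ∀ θ r : ℝ,
    (((W.fl i).filter fun f => f.1 = x ∧ |fn θ ((Z.F i).s 1 (an (Z.n i) (K - 1) f.2)) - r| ≤ Z.C / 2 ^ Z.n i).card : ℝ) ≤
      2 ^ ((ε - c1 / K) * Z.L i) * ((W.fl i).filter fun f => f.1 = x).card
  sub : ∀ᶠ i in (uf : Filter ℕ), (W.V i).X ⊆ (D i).X
  card : ∀ ε : ℝ, 0 < ε → ∀ᶠ i in (uf : Filter ℕ),
    ((D i).X.card : ℝ) ≤ 2 ^ ((12 * j / K + ε) * Z.L i) * (W.V i).X.card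
  amp : ∀ ε : ℝ, 0 < ε → ∀ᶠ i in (uf : Filter ℕ), (D i).β ≤ 2 ^ (((A + j) / K + ε) * Z.L i) * W.a i 0

theorem an_an {n a b : ℕ} (y : Z2) : an n a (an n b y) = an n (a + b) y := by
  unfold an
  rw [Function.iterate_add_apply]

theorem seq_of {K j : ℕ} {A c1 C : ℝ} (hj1 : 1 ≤ j) (hj : j < K) (hC : 1 ≤ C) (D : ℕ → Dt K j A c1 C)
    (hn : ∀ i, i ≤ (D i).n) (hQ : ∀ i, 0 < (D i).Q)
    (H : ∀ i, 2 * cKc C K ^ 2 * 2 ^ (3 * (j * (D i).n)) * Real.sqrt (D i).Q ^ 3 * Bth C j (D i).n ≤ (D i).b ^ 3 * (D i).X.card) :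
    ∃ (Z : CS K) (W : VS Z), (∀ i, Z.n i = (D i).n) ∧ Z.C = 8 * C ∧
      (∀ i (U : Finset Nd), ∑ S ∈ U, (Z.F i).a K S ^ 2 ≤ (D i).Q) ∧ ∀ W' : VS Z, W'.Le W → Good D W' := by
  classical
  have hK1 : 1 ≤ K := by omega
  have hKp : (0:ℝ) < K := by exact_mod_cast hK1
  choose X' x1 x2 x3 using fun i => exists_thin C j (D i).n (D i).X fun x hx => ((D i).brd.root x hx).1
  have hX' : ∀ i, ∀ x ∈ X' i, x.τ = 0 ∧ 0 ≤ x.T ∧ x.T < 2 ^ (2 * K * (D i).n) := fun i x hx => (D i).brd.root x (x1 i hx)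
  have hX0 : ∀ i, ∀ x ∈ X' i, x.τ = 0 := fun i x hx => (hX' i x hx).1
  have hcap : ∀ i, ∀ x ∈ X' i, ∀ y ∈ (D i).G x, Cap (D i).n j y := fun i x hx => (D i).brd.cap x (x1 i hx)
  have hne : ∀ i, ∀ x ∈ X' i, ((D i).G x).Nonempty := fun i x hx => (D i).brd.ne x (x1 i hx)
  have hamp : ∀ i, ∀ x ∈ X' i, ∀ y ∈ (D i).G x, (D i).b ≤ (D i).F.a j (pth (D i).F.s (D i).n j x y) :=
    fun i x hx y hy => (D i).amp (x1 i hx) hy
  have hbig : ∀ i, 2 * (2 * (8 * C + 3 * K) + 1) ^ 2 * 2 ^ (3 * (j * (D i).n)) * Real.sqrt (D i).Q ^ 3 ≤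
      (D i).b ^ 3 * (X' i).card := by
    intro i
    have h1 : ((D i).X.card : ℝ) ≤ (X' i).card * Bth C j (D i).n := by exact_mod_cast x3 i
    have h2 : (0:ℝ) < Bth C j (D i).n := by
      unfold Bth
      positivity
    have h3 := (D i).b_pos
    refine le_of_mul_le_mul_right ?_ h2
    calc _ ≤ (D i).b ^ 3 * (D i).X.card := H i
      _ ≤ (D i).b ^ 3 * ((X' i).card * Bth C j (D i).n) := mul_le_mul_of_nonneg_left h1 (by positivity)
      _ = _ := by ring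
  choose V a J v1 v2 v3 v4 v5 using fun i => exists_init hj1 hj hC (D i).F (hQ i) (D i).en (X' i) (D i).G (D i).b_pos (hX' i)
    (hne i) (hcap i) (hamp i) (hbig i)
  have hnt : Tendsto (fun i => (D i).n) atTop atTop := tendsto_atTop_mono hn tendsto_id
  have hntop : Tendsto (fun i => (D i).n) (uf : Filter ℕ) atTop := hnt.mono_left uf_le
  have hC8 : 1 ≤ 8 * C := by linarith
  let Z : CS K := ⟨hK1, fun i => (D i).n, hntop, 8 * C, hC8,
    fun i => NS.mod (D i).F (al0 (D i).F.s (D i).n j (X' i) (D i).G) j (D i).b (D i).b_pos.le hC hj⟩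
  have hN1 : ∀ i, 1 ≤ NN C (D i).n K := fun i => one_le_NN C _ K
  have hq1 : ∀ i, (1:ℝ) ≤ Vale.Agent.P122.H428.nq (8 * C) (D i).n K := fun i => by exact_mod_cast one_le_nq (8 * C) (D i).n K
  have hl1 : ∀ i, (1:ℝ) ≤ (los 2 (D i).n j : ℕ) := fun i => by
    have : 0 < los 2 (D i).n j := los_pos (by norm_num)
    exact_mod_cast this
  have hρpos : ∀ i, 0 < 1 / (2 * NN C (D i).n K) / (los 2 (D i).n j : ℕ) := fun i => by
    have := hN1 i
    have := hl1 i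
    positivity
  have hρ1 : ∀ i, 1 / (2 * NN C (D i).n K) / (los 2 (D i).n j : ℕ) ≤ 1 := fun i => by
    have h1 := hN1 i
    have h2 := hl1 i
    rw [div_div, div_le_one (by positivity)]
    nlinarith
  have hρbig : Z.Big fun i => 1 / (2 * NN C (D i).n K) / (los 2 (D i).n j : ℕ) := by
    intro ε hε
    filter_upwards [hntop.eventually (loss_ev C K j hε)] with i hi
    have h1 := hN1 i
    have h2 := hl1 i
    have h3 := hq1 i
    show (2:ℝ) ^ (-(ε * (D i).n)) ≤ 1 / (2 * NN C (D i).n K) / (los 2 (D i).n j : ℕ)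
    rw [div_div, Real.rpow_neg (by norm_num), ← one_div]
    refine one_div_le_one_div_of_le (by positivity) (le_trans ?_ hi)
    have h4 : 0 ≤ 2 * NN C (D i).n K * (los 2 (D i).n j : ℕ) := by positivity
    nlinarith
  let W : VS Z := ⟨V, fun i => 1 / (2 * NN C (D i).n K) / (los 2 (D i).n j : ℕ), a, J, v3, v2,
    fun i x hx => (hX' i x (v1 i hx)).2, hρpos, hρ1, hρbig⟩
  refine ⟨Z, W, fun i => rfl, rfl, fun i U => ?_, fun W' hW' => ⟨?_, ?_, ?_, ?_⟩⟩
  · refine le_trans (le_of_eq ?_) ((D i).en U)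
    refine sum_congr rfl fun S _ => ?_
    have : (Z.F i).a K S = (D i).F.a K S := ta_gt hj S
    rw [this]
  · -- spreadness
    intro ε hε
    have hρ' := W'.ρbig.pow j
    filter_upwards [hW'.le, hρ' (ε / 2 * K) (by positivity), CS.const_le (Z := Z) (K:ℝ) (half_pos hε)] with i hi hρi hKi x hx θ r
    have hVX : (W'.V i).X ⊆ X' i := hi.1.trans (v1 i)
    have hal : ∀ σ, ∀ y ∈ (W'.V i).G (j - 1) σ, al0 (D i).F.s (D i).n j (X' i) (D i).G (j - 1) σ y :=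
      fun σ y hy => v4 i σ y (hi.2 _ σ hy)
    have hs := (D i).brd.spr x (x1 i (hVX hx)) θ r
    have hsp := spr_fl (F := (D i).F) (G := (D i).G) hj1 hj (D i).b_pos hC (hX0 i) (hcap i) (hamp i) (x2 i) (W'.ok i) (W'.ρpos i).le
      hVX hal hx (fun y => |fn θ ((D i).F.s 1 (an (D i).n (j - 1) y)) - r| ≤ 8 * C / 2 ^ (D i).n)
      (δ := 2 ^ (-(c1 * (D i).n))) (by convert hs)
    have e1 : (((W'.fl i).filter fun f => f.1 = x ∧ |fn θ ((Z.F i).s 1 (an (Z.n i) (K - 1) f.2)) - r| ≤ Z.C / 2 ^ Z.n i).card : ℝ) =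
        (((Fg (W'.V i) (D i).F.s (D i).n K).filter fun f => f.1 = x ∧
          |fn θ ((D i).F.s 1 (an (D i).n (j - 1) (an (D i).n (K - j) f.2))) - r| ≤ 8 * C / 2 ^ (D i).n).card : ℝ) := by
      congr 2
      refine filter_congr fun f _ => ?_
      rw [an_an, show j - 1 + (K - j) = K - 1 by omega]
      rfl
    have e2 : ((W'.fl i).filter fun f => f.1 = x).card = ((Fg (W'.V i) (D i).F.s (D i).n K).filter fun f => f.1 = x).card := rfl
    have hρi' : (2:ℝ) ^ (-(ε / 2 * K * (D i).n)) ≤ W'.ρ i ^ j := hρi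
    have hK2 : (2:ℝ) ^ K ≤ 2 ^ (ε / 2 * Z.L i) := by
      rw [← Real.rpow_natCast]
      exact Real.rpow_le_rpow_of_exponent_le (by norm_num) hKi
    have hL : Z.L i = K * (D i).n := Z.L_eq i
    have hP : (0:ℝ) < 2 ^ (-(ε / 2 * K * (D i).n)) := Real.rpow_pos_of_pos (by norm_num) _
    have hcalc : (2:ℝ) ^ (-(c1 * (D i).n)) * 2 ^ (ε / 2 * Z.L i) =
        2 ^ (-(ε / 2 * K * (D i).n)) * 2 ^ ((ε - c1 / K) * Z.L i) := by
      rw [← Real.rpow_add (by norm_num), ← Real.rpow_add (by norm_num), hL]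
      congr 1
      field_simp
      ring
    rw [e1, e2]
    set N1 : ℝ := (((Fg (W'.V i) (D i).F.s (D i).n K).filter fun f => f.1 = x ∧
          |fn θ ((D i).F.s 1 (an (D i).n (j - 1) (an (D i).n (K - j) f.2))) - r| ≤ 8 * C / 2 ^ (D i).n).card : ℝ) with hN1'
    set N2 : ℝ := (((Fg (W'.V i) (D i).F.s (D i).n K).filter fun f => f.1 = x).card : ℝ) with hN2'
    have hsp' : N1 * W'.ρ i ^ j ≤ 2 ^ (-(c1 * (D i).n)) * 2 ^ K * N2 := by
      rw [hN1', hN2']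
      convert hsp
    have hN10 : 0 ≤ N1 := Nat.cast_nonneg _
    have hN20 : 0 ≤ N2 := Nat.cast_nonneg _
    refine le_of_mul_le_mul_right ?_ hP
    calc N1 * 2 ^ (-(ε / 2 * K * (D i).n)) ≤ N1 * W'.ρ i ^ j := mul_le_mul_of_nonneg_left hρi' hN10
      _ ≤ 2 ^ (-(c1 * (D i).n)) * 2 ^ K * N2 := hsp'
      _ ≤ 2 ^ (-(c1 * (D i).n)) * 2 ^ (ε / 2 * Z.L i) * N2 := by gcongr
      _ = _ := by rw [hcalc]; ring
  · filter_upwards [hW'.le] with i hi
    exact (hi.1.trans (v1 i)).trans (x1 i)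
  · intro ε hε
    have hε4 : 0 < ε / 4 * K := by positivity
    filter_upwards [hW'.big (ε / 4 * K) hε4, hntop.eventually (loss_ev C K j hε4),
      CS.const_le (Z := Z) (Real.logb 2 ((2 * Mth C j + 1) ^ 2)) (show 0 < ε / 4 by positivity)] with i h1 h2 h3
    have hL : Z.L i = K * (D i).n := Z.L_eq i
    have h4 : (0:ℝ) < (W.V i).X.card := by exact_mod_cast (W.ne i).card_pos
    rw [le_div_iff₀ h4] at h1
    have h5 : ((D i).X.card : ℝ) ≤ (X' i).card * Bth C j (D i).n := by exact_mod_cast x3 i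
    have h6 := Bth_le C j (D i).n
    have h7 := v5 i
    have h8 : ((2:ℝ) * Mth C j + 1) ^ 2 ≤ 2 ^ (ε / 4 * Z.L i) := by
      rw [← Real.logb_le_iff_le_rpow (by norm_num) (by positivity)]
      exact h3
    have hVW : (W.V i).X.card = (V i).X.card := rfl
    have h9 : (V i).X.card ≤ (2:ℝ) ^ (ε / 4 * K * (D i).n) * (W'.V i).X.card := by
      have e : (2:ℝ) ^ (ε / 4 * K * (D i).n) * 2 ^ (-(ε / 4 * K * (D i).n)) = 1 := by
        rw [← Real.rpow_add (by norm_num)]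
        simp
      have h1' : (2:ℝ) ^ (-(ε / 4 * K * (D i).n)) * (V i).X.card ≤ (W'.V i).X.card := h1
      calc ((V i).X.card : ℝ) = 2 ^ (ε / 4 * K * (D i).n) * (2 ^ (-(ε / 4 * K * (D i).n)) * (V i).X.card) := by
            rw [← mul_assoc, e, one_mul]
        _ ≤ _ := mul_le_mul_of_nonneg_left h1' (by positivity)
    have h2' : 2 * NN C (D i).n K * Vale.Agent.P122.H428.nq (8 * C) (D i).n K * (los 2 (D i).n j : ℕ) ≤
      (2:ℝ) ^ (ε / 4 * K * (D i).n) := h2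
    have hx0 : (0:ℝ) ≤ (V i).X.card := Nat.cast_nonneg _
    calc ((D i).X.card : ℝ) ≤ (X' i).card * Bth C j (D i).n := h5
      _ ≤ (2 * NN C (D i).n K * Vale.Agent.P122.H428.nq (8 * C) (D i).n K * 2 ^ (6 * (j * (D i).n)) * (los 2 (D i).n j : ℕ) *
            (V i).X.card) * ((2 * Mth C j + 1) ^ 2 * 2 ^ (6 * (j * (D i).n))) :=
          mul_le_mul h7 h6 (Nat.cast_nonneg _) (by have := hN1 i; positivity)
      _ = (2 * NN C (D i).n K * Vale.Agent.P122.H428.nq (8 * C) (D i).n K * (los 2 (D i).n j : ℕ)) *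
            ((2 * Mth C j + 1) ^ 2) * (2 ^ (6 * (j * (D i).n)) * 2 ^ (6 * (j * (D i).n))) * (V i).X.card := by ring
      _ ≤ (2:ℝ) ^ (ε / 4 * K * (D i).n) * 2 ^ (ε / 4 * Z.L i) * (2 ^ (6 * (j * (D i).n)) * 2 ^ (6 * (j * (D i).n))) *
            (2 ^ (ε / 4 * K * (D i).n) * (W'.V i).X.card) := by
          gcongr
      _ = (2:ℝ) ^ (ε / 4 * K * (D i).n + ε / 4 * Z.L i + 12 * (j * (D i).n) + ε / 4 * K * (D i).n) * (W'.V i).X.card := by
          have e1 : (2:ℝ) ^ (6 * (j * (D i).n)) * 2 ^ (6 * (j * (D i).n)) = 2 ^ (12 * ((j:ℝ) * (D i).n)) := by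
            rw [← pow_add, ← Real.rpow_natCast]
            congr 1
            push_cast
            ring
          rw [e1, Real.rpow_add (by norm_num), Real.rpow_add (by norm_num), Real.rpow_add (by norm_num)]
          ring
      _ ≤ _ := by
          refine mul_le_mul_of_nonneg_right (Real.rpow_le_rpow_of_exponent_le (by norm_num) ?_) (Nat.cast_nonneg _)
          rw [hL]
          have e : (12 * (j:ℝ) / K + ε) * (K * (D i).n) = 12 * (j * (D i).n) + ε * K * (D i).n := by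
            field_simp
          rw [e]
          have : 0 ≤ ε * K * ((D i).n : ℝ) := by positivity
          linarith
  · intro ε hε
    filter_upwards [hW'.le, CS.const_le (Z := Z) 1 hε] with i hi h1
    obtain ⟨x, hx⟩ := W'.ne i
    have hVX : (W'.V i).X ⊆ X' i := hi.1.trans (v1 i)
    have h2 := ta0_ge (F := (D i).F) (G := (D i).G) (D i).b_pos.le (hX0 i) (hcap i) (hamp i) (hVX hx)
    have h3 : (1:ℝ) ≤ ((D i).G x).card := by exact_mod_cast (hne i x (hVX hx)).card_pos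
    have h4 : ta (D i).F (al0 (D i).F.s (D i).n j (X' i) (D i).G) j (D i).b 0 x < 2 * W'.a i 0 :=
      ((W'.ok i).amp 0 (Nat.zero_le _) x hx).2
    have h5 := (D i).b_pos
    have h6 : (D i).b ≤ 2 ^ (j * (D i).n) * (2 * W'.a i 0) := by
      have h7 : (2:ℝ) ^ (j * (D i).n) * ta (D i).F (al0 (D i).F.s (D i).n j (X' i) (D i).G) j (D i).b 0 x ≤
        2 ^ (j * (D i).n) * (2 * W'.a i 0) := mul_le_mul_of_nonneg_left h4.le (by positivity)
      nlinarith
    have hL : Z.L i = K * (D i).n := Z.L_eq i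
    have ha := (W'.ok i).apos 0 (Nat.zero_le _)
    rw [(D i).b_eq]
    calc (2:ℝ) ^ (A * (D i).n) * (D i).b ≤ 2 ^ (A * (D i).n) * (2 ^ (j * (D i).n) * (2 * W'.a i 0)) :=
          mul_le_mul_of_nonneg_left h6 (by positivity)
      _ = (2:ℝ) ^ (A * (D i).n + j * (D i).n + 1) * W'.a i 0 := by
          rw [Real.rpow_add (by norm_num), Real.rpow_add (by norm_num), Real.rpow_one, ← Real.rpow_natCast 2 (j * (D i).n)]
          push_cast
          ring
      _ ≤ _ := by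
          refine mul_le_mul_of_nonneg_right (Real.rpow_le_rpow_of_exponent_le (by norm_num) ?_) ha.le
          have e : ((A + j) / K + ε) * Z.L i = A * (D i).n + j * (D i).n + ε * Z.L i := by
            rw [hL]
            field_simp
          rw [e]
          linarith

end Vale.Agent.P076.NS
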