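import Vale.Agent.P076.NS.Init2

/-!
# P076 / NS : finite data, trivial bounds (helper228)
-/

set_option autoImplicit false

namespace Vale.Agent.P076.NS

open Finset Vale.Agent.P122.C2 Vale.Agent.P122.H610

/-- the data of the broad estimates for one `n` -/
structure Dt (K j : ℕ) (A c1 C : ℝ) where
  n : ℕ
  F : Amp C n K
  β : ℝ
  Q : ℝ
  X : Finset Nd
  G : Nd → Finset Z2
  β0 : 0 < β
  brd : Brd F j A c1 β X G
  en : ∀ U : Finset Nd, ∑ S ∈ U, F.a K S ^ 2 ≤ Q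

/-- number of cells near a cell -/
noncomputable def Bth (C : ℝ) (j n : ℕ) : ℕ := 2 ^ (2 * j * n) * (2 * (Mth C j * 2 ^ (2 * j * n)) + 1) ^ 2

theorem Bth_le (C : ℝ) (j n : ℕ) : (Bth C j n : ℝ) ≤ (2 * Mth C j + 1) ^ 2 * 2 ^ (6 * (j * n)) := by
  unfold Bth
  push_cast
  have h1 : (1:ℝ) ≤ 2 ^ (2 * j * n) := one_le_pow₀ (by norm_num)
  have h2 : (2 * ((Mth C j : ℝ) * 2 ^ (2 * j * n)) + 1) ≤ (2 * Mth C j + 1) * 2 ^ (2 * j * n) := by nlinarith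
  have e : (2:ℝ) ^ (6 * (j * n)) = 2 ^ (2 * j * n) * (2 ^ (2 * j * n)) ^ 2 := by
    rw [← pow_mul, ← pow_add]
    congr 1
    ring
  rw [e]
  have h3 : (2 * ((Mth C j : ℝ) * 2 ^ (2 * j * n)) + 1) ^ 2 ≤ ((2 * Mth C j + 1) * 2 ^ (2 * j * n)) ^ 2 :=
    pow_le_pow_left₀ (by positivity) h2 2
  calc (2:ℝ) ^ (2 * j * n) * (2 * ((Mth C j : ℝ) * 2 ^ (2 * j * n)) + 1) ^ 2 ≤
        2 ^ (2 * j * n) * ((2 * Mth C j + 1) * 2 ^ (2 * j * n)) ^ 2 := by gcongr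
    _ = _ := by ring

/-- thinning -/
theorem exists_thin (C : ℝ) (j n : ℕ) (X : Finset Nd) (hX : ∀ x ∈ X, x.τ = 0) :
    ∃ X' ⊆ X, (∀ x ∈ X', ∀ x' ∈ X', nr (Mth C j) (2 * j * n) x x' → x = x') ∧ X.card ≤ X'.card * Bth C j n := by
  obtain ⟨X', h1, h2, h3⟩ := exists_net (nr (Mth C j) (2 * j * n)) (fun x => ⟨rfl, fun k => by simp⟩)
    (fun x y h => ⟨h.1.symm, fun k => by rw [abs_sub_comm]; exact h.2 k⟩) X
  refine ⟨X', h1, h2, ?_⟩
  exact card_net h3 fun y _ => card_nr hX y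

section

variable {K j : ℕ} {A c1 C : ℝ} (D : Dt K j A c1 C)

/-- the truncation -/
noncomputable def Dt.b : ℝ := D.β * 2 ^ (-(A * D.n))

theorem Dt.b_pos : 0 < D.b := mul_pos D.β0 (Real.rpow_pos_of_pos (by norm_num) _)

theorem Dt.b_eq : D.β = 2 ^ (A * D.n) * D.b := by
  unfold Dt.b
  rw [mul_comm, mul_assoc, ← Real.rpow_add (by norm_num)]
  simp

theorem Dt.amp {x : Nd} (hx : x ∈ D.X) {y : Z2} (hy : y ∈ D.G x) : D.b ≤ D.F.a j (pth D.F.s D.n j x y) := by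
  have h1 := D.brd.amp x hx y hy
  have h2 : (0:ℝ) < 2 ^ (A * D.n) := Real.rpow_pos_of_pos (by norm_num) _
  rw [D.b_eq] at h1
  exact le_of_mul_le_mul_left h1 h2

theorem Dt.Q_nonneg : 0 ≤ D.Q := by simpa using D.en ∅

/-- upper bound of `β` -/
theorem Dt.b_le (hC : 1 ≤ C) (hj : j < K) (hne : D.X.Nonempty) : D.b ≤ (C * 2 ^ (2 * D.n)) ^ (K - j) * Real.sqrt D.Q := by
  obtain ⟨x, hx⟩ := hne
  obtain ⟨y, hy⟩ := D.brd.ne x hx
  refine (D.amp hx hy).trans ?_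
  refine Vale.Agent.P122.H428.a_le D.F hC (μ := Real.sqrt D.Q) ?_ (K - j) j (by omega) _ ?_
  · intro S
    refine Real.le_sqrt_of_sq_le ?_
    have := D.en {S}
    simpa using this
  · cases j with
    | zero =>
      rw [pth_zero]
      exact cap_zero (D.brd.root x hx).1
    | succ j => exact D.brd.cap x hx y hy

/-- the constant of the count of cells -/
noncomputable def cKc (C : ℝ) (K : ℕ) : ℝ := 2 * (8 * C + 3 * K) + 1

/-- number of cells -/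
theorem Dt.card_le (hC : 1 ≤ C) (hj : j < K) :
    (D.X.card : ℝ) ≤ cKc C K ^ 2 * (2 * Mth C j + 1) ^ 2 * 2 ^ (6 * (K * D.n) + 6 * (j * D.n)) := by
  obtain ⟨X', h1, -, h3⟩ := exists_thin C j D.n D.X fun x hx => (D.brd.root x hx).1
  have hX' : ∀ x ∈ X', x.τ = 0 ∧ 0 ≤ x.T ∧ x.T < 2 ^ (2 * K * D.n) := fun x hx => D.brd.root x (h1 hx)
  have h4 := Vale.Agent.P122.H428.card_pos (mod D.F (al0 D.F.s D.n j X' D.G) j D.b D.b_pos.le hC hj) (by linarith) X' hX' (by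
    intro x hx
    have h5 := ta0_ge (F := D.F) (G := D.G) D.b_pos.le (fun x hx => (hX' x hx).1)
      (fun x hx => D.brd.cap x (h1 hx)) (fun x hx y hy => D.amp (h1 hx) hy) hx
    have h6 : (1:ℝ) ≤ (D.G x).card := by exact_mod_cast (D.brd.ne x (h1 hx)).card_pos
    have h7 := D.b_pos
    rw [mod_a]
    intro h0
    rw [h0, mul_zero] at h5
    nlinarith)
  have h5 : (D.X.card : ℝ) ≤ X'.card * Bth C j D.n := by exact_mod_cast h3
  have h6 := Bth_le C j D.n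
  have e : (2:ℝ) ^ (6 * (K * D.n) + 6 * (j * D.n)) = 2 ^ (6 * K * D.n) * 2 ^ (6 * (j * D.n)) := by
    rw [pow_add, mul_assoc 6 K]
  rw [e]
  calc (D.X.card : ℝ) ≤ X'.card * Bth C j D.n := h5
    _ ≤ ((2 * (8 * C + 3 * K) + 1) ^ 2 * 2 ^ (6 * K * D.n)) * ((2 * Mth C j + 1) ^ 2 * 2 ^ (6 * (j * D.n))) :=
        mul_le_mul h4 h6 (Nat.cast_nonneg _) (by positivity)
    _ = _ := by unfold cKc; ring

/-- the trivial constants -/
noncomputable def Tn (K j : ℕ) (A C : ℝ) (m : ℕ) (n : ℕ) : ℝ :=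
  (2 ^ (A * n) * (C * 2 ^ (2 * n)) ^ (K - j)) ^ m * (cKc C K ^ 2 * (2 * Mth C j + 1) ^ 2 * 2 ^ (6 * (K * n) + 6 * (j * n)))

theorem Dt.triv (hC : 1 ≤ C) (hj : j < K) (m : ℕ) : D.β ^ m * D.X.card ≤ Tn K j A C m D.n * Real.sqrt D.Q ^ m := by
  have hT : (0:ℝ) ≤ Tn K j A C m D.n := by
    unfold Tn
    have : 0 ≤ cKc C K := by unfold cKc; positivity
    positivity
  rcases D.X.eq_empty_or_nonempty with h0 | hne
  · rw [h0]
    simp only [card_empty, Nat.cast_zero, mul_zero]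
    positivity
  · have h1 := D.b_le hC hj hne
    have h2 := D.card_le hC hj
    have h3 : D.β ≤ 2 ^ (A * D.n) * (C * 2 ^ (2 * D.n)) ^ (K - j) * Real.sqrt D.Q := by
      rw [D.b_eq, mul_assoc]
      exact mul_le_mul_of_nonneg_left h1 (by positivity)
    calc D.β ^ m * D.X.card ≤ (2 ^ (A * D.n) * (C * 2 ^ (2 * D.n)) ^ (K - j) * Real.sqrt D.Q) ^ m *
          (cKc C K ^ 2 * (2 * Mth C j + 1) ^ 2 * 2 ^ (6 * (K * D.n) + 6 * (j * D.n))) := by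
          refine mul_le_mul (pow_le_pow_left₀ D.β0.le h3 m) h2 (Nat.cast_nonneg _) (by positivity)
      _ = _ := by unfold Tn; rw [mul_pow _ (Real.sqrt D.Q)]; ring

end

end Vale.Agent.P076.NS
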