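import Vale.Agent.P076.NS.Seq
import Vale.Agent.P076.NS.Geo
import Vale.Agent.P076.H803.Reg
import Vale.Agent.P122.H474.Res

/-!
# P076 / NS : `TG0` for the dense laws of a regular broad family (helper228)
-/

set_option autoImplicit false

namespace Vale.Agent.P076.NS

open Filter Topology Finset Vale.Agent.P127 Vale.Agent.P127.Stk Vale.Agent.P127.U Vale.Agent.P127.U.Sys Vale.Agent.P122.C2
  Vale.Agent.P122.E Vale.Agent.P122.H518 Vale.Agent.P122.H610 Vale.Agent.P122.H474 Vale.Agent.P076.H803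

theorem uL_ex {α : Type} {T : Finset α} (h : T.Nonempty) (E : α → Prop) [DecidablePred E] :
    (uL T h).ex (fun f => if E f.1 then 1 else 0) = ((T.filter fun f => E f).card : ℝ) / T.card := by
  have h1 := uL_pr' h E True
  have h2 : (uL T h).pr (fun f => E f.1) True = (uL T h).ex (fun f => if E f.1 then 1 else 0) := by
    unfold Law.pr Law.ex
    rw [sum_filter]
    refine sum_congr rfl fun f _ => ?_
    by_cases hE : E f.1 <;> simp [hE]
  rw [← h2, h1]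
  congr 3
  ext f
  simp

theorem uL_x {K : ℕ} {Z : CS K} (W : VS Z) (i : ℕ) (x : Nd) :
    (W.sys.P i).pr (W.flg.x i) x = ((((W.fl i).filter fun f => f.1 = x).card : ℕ) : ℝ) / (W.fl i).card := by
  have h := uL_pr' (W.fl_ne i) (fun f : Nd × Z2 => f.1) x
  have h' : (W.sys.P i).pr (W.flg.x i) x = (uL (W.fl i) (W.fl_ne i)).pr (fun f => f.1.1) x := rfl
  rw [h', h]
  congr 3
  ext f
  simp only [mem_filter]

/-- the directions of the dense laws are not concentrated in strips -/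
theorem spr_res {K j : ℕ} {A c1 C : ℝ} {D : ℕ → Dt K j A c1 C} {Z : CS K} {W : VS Z} (hG : Good D W) {H0 : ℝ}
    (hU : Unf W.sys W.flg.x H0) {S' : Sys} (d : Dns S' W.sys) (hL : Low S' (d.pull W.flg.x) H0) (ε : ℝ) (hε : 0 < ε) :
    ∀ᶠ i in (uf : Filter ℕ), ∀ ω0, 0 < (S'.P i).w ω0 → ∀ θ r : ℝ,
      (S'.P i).ex (fun ω => if d.pull W.flg.x i ω = d.pull W.flg.x i ω0 ∧
        |fn θ ((Z.F i).s 1 (d.pull (W.flg.Y 1) i ω)) - r| ≤ Z.C / 2 ^ Z.n i then 1 else 0) ≤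
        (2:ℝ) ^ ((ε - c1 / K) * S'.L i) * (S'.P i).pr (d.pull W.flg.x i) (d.pull W.flg.x i ω0) := by
  classical
  have hε4 : 0 < ε / 4 := by positivity
  filter_upwards [hG.spr (ε / 4) hε4, hU (ε / 4) hε4, hL (ε / 4) hε4, dns_dom d (ε / 4) hε4] with i h1 h2 h3 h4 ω0 hω0 θ r
  obtain ⟨f0, hf0⟩ : ∃ f0, f0 = d.π i ω0 := ⟨_, rfl⟩
  have hx0 : d.pull W.flg.x i ω0 = f0.1.1 := by rw [hf0]; rfl
  have hSL : S'.L i = W.sys.L i := dns_L d i
  have hZL : (W.sys.L i : ℝ) = Z.L i := by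
    rw [W.sys_L, Z.L_eq]
    push_cast
    rfl
  set E : Nd × Z2 → Prop := fun f => f.1 = f0.1.1 ∧ |fn θ ((Z.F i).s 1 (an (Z.n i) (K - 1) f.2)) - r| ≤ Z.C / 2 ^ Z.n i with hE
  have e1 : (S'.P i).ex (fun ω => if d.pull W.flg.x i ω = d.pull W.flg.x i ω0 ∧
        |fn θ ((Z.F i).s 1 (d.pull (W.flg.Y 1) i ω)) - r| ≤ Z.C / 2 ^ Z.n i then 1 else 0) =
      (S'.P i).ex ((fun f : W.sys.Ω i => if E f.1 then (1:ℝ) else 0) ∘ d.π i) := by
    unfold Law.ex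
    refine sum_congr rfl fun ω _ => ?_
    rw [hx0]
    rfl
  have h5 := dom_ex h4 (fun f : W.sys.Ω i => if E f.1 then (1:ℝ) else 0) fun f => by split_ifs <;> norm_num
  have h6 : (W.sys.P i).ex (fun f : W.sys.Ω i => if E f.1 then (1:ℝ) else 0) =
      ((((W.fl i).filter fun f => E f).card : ℕ) : ℝ) / (W.fl i).card := by
    exact uL_ex (W.fl_ne i) E
  have hxX : f0.1.1 ∈ (W.V i).X := nd_D (W.ok i) (c := 0) (Nat.zero_le _) f0.2
  have h7 := h1 f0.1.1 hxX θ r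
  have h8 : ((((W.fl i).filter fun f => E f).card : ℕ) : ℝ) ≤
      2 ^ ((ε / 4 - c1 / K) * Z.L i) * ((W.fl i).filter fun f => f.1 = f0.1.1).card := by
    convert h7
  have h9 := uL_x W i f0.1.1
  have h10 : (W.sys.P i).pr (W.flg.x i) f0.1.1 ≤ (2:ℝ) ^ ((-H0 + ε / 4) * W.sys.L i) := h2 f0
  have h11 := h3 ω0 hω0
  rw [hx0, hSL] at h11
  have hT : (0:ℝ) < (W.fl i).card := by exact_mod_cast (W.fl_ne i).card_pos
  rw [e1, hx0, hSL]
  calc (S'.P i).ex ((fun f : W.sys.Ω i => if E f.1 then (1:ℝ) else 0) ∘ d.π i)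
      ≤ 2 ^ (ε / 4 * W.sys.L i) * (W.sys.P i).ex (fun f : W.sys.Ω i => if E f.1 then (1:ℝ) else 0) := h5
    _ = 2 ^ (ε / 4 * W.sys.L i) * (((((W.fl i).filter fun f => E f).card : ℕ) : ℝ) / (W.fl i).card) := by rw [h6]
    _ ≤ 2 ^ (ε / 4 * W.sys.L i) * (2 ^ ((ε / 4 - c1 / K) * Z.L i) * ((W.fl i).filter fun f => f.1 = f0.1.1).card /
          (W.fl i).card) := by gcongr
    _ = 2 ^ (ε / 4 * W.sys.L i) * (2 ^ ((ε / 4 - c1 / K) * Z.L i) * (W.sys.P i).pr (W.flg.x i) f0.1.1) := by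
        rw [h9, mul_div_assoc]
    _ ≤ 2 ^ (ε / 4 * W.sys.L i) * (2 ^ ((ε / 4 - c1 / K) * Z.L i) * 2 ^ ((-H0 + ε / 4) * W.sys.L i)) := by gcongr
    _ = 2 ^ ((ε - c1 / K) * W.sys.L i) * 2 ^ ((-H0 - ε / 4) * W.sys.L i) := by
        rw [← hZL, ← Real.rpow_add (by norm_num), ← Real.rpow_add (by norm_num), ← Real.rpow_add (by norm_num)]
        congr 1
        ring
    _ ≤ _ := mul_le_mul_of_nonneg_left h11 (by positivity)

/-- **the regular system of a broad family satisfies `TG0`**, for all flat dense laws -/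
theorem tg0_res {K j : ℕ} {A c1 C : ℝ} {D : ℕ → Dt K j A c1 C} {Z : CS K} {W : VS Z} (hG : Good D W) (hK : 1 ≤ K)
    {J θ H e : ℕ → ℝ} {B : ℕ → W.sys.BX} {kk jj : ℕ → ℕ → ℕ} (R : RegA W.flg J θ H e B kk jj) {S' : Sys}
    (d : Dns S' W.sys) (hs : ∀ i ω, 0 < (S'.P i).w ω → 0 < (W.sys.P i).w (d.π i ω)) (hL : Low S' (d.pull W.flg.x) (H 0)) :
    TG0 (W.flg.res d hs) c1 where
  t0 := fun _ hc => tc_nonneg _ hc
  t1 := fun _ hc => tc_le (cts hK (RegA.res R d hs)) hc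
  I2 := fun _ _ hab hb => i2 (cts hK (RegA.res R d hs)) hab hb
  I2' := fun _ _ _ h1 h2 _ h4 hb => i2' _ h1 h2 h4 hb
  spr := spr_res hG (R.Nu 0 (Nat.zero_le K)) d hL

end Vale.Agent.P076.NS
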