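import Vale.Agent.P076.NS.Ft
import Vale.Agent.P076.NS.Fib
import Vale.Agent.P122.H474.Path

/-!
# P076 / NS : thinning of the starting cells, allowed caps (helper228)
-/

set_option autoImplicit false

namespace Vale.Agent.P076.NS

open Finset Vale.Agent.P122.C2 Vale.Agent.P122.H610

/-- maximal separated subset -/
theorem exists_net {α : Type*} [DecidableEq α] (R : α → α → Prop) (hr : ∀ x, R x x) (hs : ∀ x y, R x y → R y x)
    (X : Finset α) : ∃ X' ⊆ X, (∀ x ∈ X', ∀ y ∈ X', R x y → x = y) ∧ ∀ x ∈ X, ∃ y ∈ X', R x y := by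
  induction X using Finset.induction_on with
  | empty => exact ⟨∅, Subset.rfl, by simp, by simp⟩
  | insert x X hx ih =>
    obtain ⟨X', h1, h2, h3⟩ := ih
    by_cases h : ∃ y ∈ X', R x y
    · refine ⟨X', h1.trans (subset_insert _ _), h2, fun z hz => ?_⟩
      rw [mem_insert] at hz
      rcases hz with rfl | hz
      · exact h
      · exact h3 z hz
    · push Not at h
      refine ⟨insert x X', insert_subset_insert _ h1, fun y hy z hz hyz => ?_, fun z hz => ?_⟩
      · rw [mem_insert] at hy hz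
        rcases hy with rfl | hy
        · rcases hz with rfl | hz
          · rfl
          · exact absurd hyz (h z hz)
        · rcases hz with rfl | hz
          · exact absurd (hs _ _ hyz) (h y hy)
          · exact h2 y hy z hz hyz
      · rw [mem_insert] at hz
        rcases hz with rfl | hz
        · exact ⟨z, mem_insert_self _ _, hr z⟩
        · obtain ⟨y, hy, hy'⟩ := h3 z hz
          exact ⟨y, mem_insert_of_mem hy, hy'⟩

theorem card_net {α : Type*} [DecidableEq α] {R : α → α → Prop} [DecidableRel R] {X X' : Finset α} {B : ℕ}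
    (h : ∀ x ∈ X, ∃ y ∈ X', R x y) (hB : ∀ y ∈ X', (X.filter fun x => R x y).card ≤ B) : X.card ≤ X'.card * B := by
  have h1 : X ⊆ X'.biUnion fun y => X.filter fun x => R x y := by
    intro x hx
    obtain ⟨y, hy, hxy⟩ := h x hx
    exact mem_biUnion.2 ⟨y, hy, mem_filter.2 ⟨hx, hxy⟩⟩
  exact (card_le_card h1).trans (card_biUnion_le_card_mul _ _ _ hB)

/-- near starting cells -/
def nr (M m : ℕ) (x x' : Nd) : Prop := x.T / 2 ^ m = x'.T / 2 ^ m ∧ ∀ k, |x.o k - x'.o k| ≤ M * 2 ^ m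

instance (M m : ℕ) : DecidableRel (nr M m) := fun _ _ => inferInstanceAs (Decidable (_ ∧ _))

theorem card_nr {M m : ℕ} {X : Finset Nd} (hX : ∀ x ∈ X, x.τ = 0) (y : Nd) :
    (X.filter fun x => nr M m x y).card ≤ 2 ^ m * (2 * (M * 2 ^ m) + 1) ^ 2 := by
  have hp : (0:ℤ) < 2 ^ m := by positivity
  set E : Finset (ℤ × Z2) := Finset.Ico (2 ^ m * (y.T / 2 ^ m)) (2 ^ m * (y.T / 2 ^ m) + 2 ^ m) ×ˢ
    Fintype.piFinset fun k => Finset.Icc (y.o k - M * 2 ^ m) (y.o k + M * 2 ^ m) with hE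
  have h1 : (X.filter fun x => nr M m x y).card ≤ E.card := by
    refine Finset.card_le_card_of_injOn (fun S => (S.T, S.o)) ?_ ?_
    · intro S hS
      rw [Finset.mem_coe, mem_filter] at hS
      rw [Finset.mem_coe, hE, mem_product]
      refine ⟨?_, ?_⟩
      · have g1 := hS.2.1
        have d1 := Int.mul_ediv_add_emod S.T (2 ^ m)
        have d2 := Int.emod_nonneg S.T hp.ne'
        have d3 := Int.emod_lt_of_pos S.T hp
        rw [g1] at d1
        show S.T ∈ Finset.Ico (2 ^ m * (y.T / 2 ^ m)) (2 ^ m * (y.T / 2 ^ m) + 2 ^ m)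
        rw [mem_Ico]
        constructor <;> omega
      · rw [Fintype.mem_piFinset]
        intro k
        have g2 := abs_le.1 (hS.2.2 k)
        show S.o k ∈ Finset.Icc (y.o k - M * 2 ^ m) (y.o k + M * 2 ^ m)
        rw [mem_Icc]
        constructor <;> linarith [g2.1, g2.2]
    · intro S hS S' hS' he
      rw [Finset.mem_coe, mem_filter] at hS hS'
      simp only [Prod.mk.injEq] at he
      exact Nd.ext ((hX S hS.1).trans (hX S' hS'.1).symm) he.2 he.1
  refine h1.trans (le_of_eq ?_)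
  rw [hE, card_product, Fintype.card_piFinset]
  have e1 : (Finset.Ico (2 ^ m * (y.T / 2 ^ m)) (2 ^ m * (y.T / 2 ^ m) + 2 ^ m)).card = 2 ^ m := by
    rw [Int.card_Ico]
    have : (2 ^ m * (y.T / 2 ^ m) + 2 ^ m - 2 ^ m * (y.T / 2 ^ m) : ℤ) = ((2 ^ m : ℕ) : ℤ) := by push_cast; ring
    rw [this, Int.toNat_natCast]
  have e2 : ∀ k : Fin 2, (Finset.Icc (y.o k - M * 2 ^ m) (y.o k + M * 2 ^ m)).card = 2 * (M * 2 ^ m) + 1 := by
    intro k
    rw [Int.card_Icc]
    have : (y.o k + M * 2 ^ m + 1 - (y.o k - M * 2 ^ m) : ℤ) = ((2 * (M * 2 ^ m) + 1 : ℕ) : ℤ) := by push_cast; ring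
    rw [this, Int.toNat_natCast]
  simp only [e1, e2, Fin.prod_univ_two]
  ring

/-! ### the chain of a flag -/

theorem mem_kids' {n : ℕ} {τ τ' : Z2} : τ' ∈ kids n τ ↔ par n τ' = τ := by
  refine ⟨par_kids, fun h => ?_⟩
  unfold kids
  rw [Fintype.mem_piFinset]
  intro k
  rw [← h]
  have hn : (0 : ℤ) < 2 ^ n := by positivity
  simp only [par, Finset.mem_Ico]
  have h1 := Int.emod_add_mul_ediv (τ' k) (2 ^ n)
  have h2 := Int.emod_nonneg (τ' k) hn.ne'
  have h3 := Int.emod_lt_of_pos (τ' k) hn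
  constructor <;> linarith

theorem cap_an {n i c : ℕ} (hc : c ≤ i) {y : Z2} (hy : Cap n i y) : Cap n c (an n (i - c) y) := by
  intro k
  rw [an_apply]
  have hp : (0:ℤ) < 2 ^ ((i - c) * n) := by positivity
  refine ⟨Int.ediv_nonneg (hy k).1 hp.le, Int.ediv_lt_of_lt_mul hp ?_⟩
  rw [← pow_add, ← add_mul]
  have : c + (i - c) = i := by omega
  rw [this]
  exact (hy k).2

theorem cap_zero_eq {n : ℕ} {y : Z2} (hy : Cap n 0 y) : y = 0 := by
  funext k
  have := hy k
  simp only [zero_mul, pow_zero] at this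
  show y k = 0
  omega

theorem chn_pth {s : ℕ → Z2 → Fin 2 → ℝ} {n i : ℕ} {x : Nd} (hx : x.τ = 0) {y : Z2} (hy : Cap n i y) :
    Vale.Agent.P122.H474.Chn s n i (fun c => nd s n i c (x, y)) := by
  have hτ : ∀ c, c ≤ i → (nd s n i c (x, y)).τ = an n (i - c) y := by
    intro c hc
    cases c with
    | zero =>
      rw [nd_zero]
      show x.τ = _
      rw [hx]
      exact (cap_zero_eq (cap_an (Nat.zero_le i) hy)).symm
    | succ c => exact nd_succ_τ _
  refine ⟨fun c hc => ?_, fun c hc => nd_succ hc _, fun c hc => ?_⟩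
  · rw [hτ c hc]
    exact cap_an hc hy
  · rw [hτ (c + 1) hc, hτ c hc.le, mem_kids']
    have e : i - c = (i - (c + 1)) + 1 := by omega
    rw [e, an_succ]

theorem slp_restrict {C : ℝ} {n K i : ℕ} {s : ℕ → Z2 → Fin 2 → ℝ} (h : Slp C n K s) (hi : i ≤ K) : Slp C n i s where
  bd := fun i' τ k hi' => h.bd i' τ k (hi'.trans hi)
  nest := fun i' τ k hi' => h.nest i' τ k (hi'.trans_le hi)
  lip := fun i' τ τ' k hi' => h.lip i' τ τ' k (hi'.trans hi)
  colip := fun i' τ τ' hi' => h.colip i' τ τ' (hi'.trans hi)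

/-- the constant of the thinning -/
noncomputable def Mth (C : ℝ) (j : ℕ) : ℕ := ⌈2 + 2 * ((C + 2) * j)⌉₊

/-- starting cells with the same piece of level `i` are near -/
theorem sig_near {C : ℝ} {n K i j : ℕ} {s : ℕ → Z2 → Fin 2 → ℝ} (hs : Slp C n K s) (hi : i ≤ K) (hij : i + 1 = j) {x x' : Nd}
    (hx : x.τ = 0) (hx' : x'.τ = 0) {y : Z2} (hy : Cap n i y) (h : (pth s n i x y).sg n = (pth s n i x' y).sg n) :
    nr (Mth C j) (2 * j * n) x x' := by
  have hC := Vale.Agent.P122.H474.Chn.C_nonneg hs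
  have c1 := chn_pth (s := s) hx hy
  have c2 := chn_pth (s := s) hx' hy
  have hs' := slp_restrict hs hi
  have t1 := c1.T_eq (Nat.zero_le i) le_rfl
  have t2 := c2.T_eq (Nat.zero_le i) le_rfl
  simp only [nd_self, nd_zero, Nat.sub_zero] at t1 t2
  have hT0 := congrArg Nd.T h
  have hT : (pth s n i x y).T = (pth s n i x' y).T := hT0
  rw [t1, t2] at hT
  have hτ0 := congrArg Nd.τ h
  have hτ : (pth s n i x y).τ = (pth s n i x' y).τ := hτ0
  have ho : ∀ k, (pth s n i x y).o k / 2 ^ n = (pth s n i x' y).o k / 2 ^ n := fun k => congrFun (congrArg Nd.o h) k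
  constructor
  · have e : 2 * j * n = 2 * i * n + 2 * n := by rw [← hij]; ring
    rw [e, pow_add, ← Int.ediv_ediv_of_nonneg (by positivity), ← Int.ediv_ediv_of_nonneg (by positivity), hT]
  · intro k
    have p1 := c1.posn hs' (Nat.zero_le i) le_rfl k
    have p2 := c2.posn hs' (Nat.zero_le i) le_rfl k
    simp only [nd_self, nd_zero, Vale.Agent.P122.H474.ps, Vale.Agent.P122.H474.tm, zero_mul, mul_zero, pow_zero, one_mul,
      Nat.cast_zero, sub_zero] at p1 p2
    have hTT : (pth s n i x y).T = (pth s n i x' y).T := hT0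
    rw [← hτ, ← hTT] at p2
    set S := pth s n i x y with hS
    set S' := pth s n i x' y with hS'
    have hcap : Cap n i S.τ := by
      have := c1.cap i le_rfl
      simp only [nd_self] at this
      exact this
    have hsl := hs.bd i S.τ k hi hcap
    have hTd : |(x.T : ℝ) - x'.T| ≤ 2 ^ (2 * i * n) := by
      have hp : (0:ℤ) < 2 ^ (2 * i * n) := by positivity
      have d1 := Int.mul_ediv_add_emod x.T (2 ^ (2 * i * n))
      have d2 := Int.emod_nonneg x.T hp.ne'
      have d3 := Int.emod_lt_of_pos x.T hp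
      have d4 := Int.mul_ediv_add_emod x'.T (2 ^ (2 * i * n))
      have d5 := Int.emod_nonneg x'.T hp.ne'
      have d6 := Int.emod_lt_of_pos x'.T hp
      rw [hT] at d1
      have : |x.T - x'.T| ≤ 2 ^ (2 * i * n) := by
        rw [abs_le]
        constructor <;> omega
      exact_mod_cast this
    have hod : |(S.o k : ℝ) - S'.o k| ≤ 2 ^ n := by
      have hp : (0:ℤ) < 2 ^ n := by positivity
      have d1 := Int.mul_ediv_add_emod (S.o k) (2 ^ n)
      have d2 := Int.emod_nonneg (S.o k) hp.ne'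
      have d3 := Int.emod_lt_of_pos (S.o k) hp
      have d4 := Int.mul_ediv_add_emod (S'.o k) (2 ^ n)
      have d5 := Int.emod_nonneg (S'.o k) hp.ne'
      have d6 := Int.emod_lt_of_pos (S'.o k) hp
      rw [ho k] at d1
      have : |S.o k - S'.o k| ≤ 2 ^ n := by
        rw [abs_le]
        constructor <;> omega
      exact_mod_cast this
    have e1 : ((x.o k : ℝ) - x'.o k) =
        ((x.o k : ℝ) - (2 ^ (i * n) * (S.o k : ℝ) + ((x.T : ℝ) - 2 ^ (2 * i * n) * (S.T : ℝ)) * s i S.τ k)) +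
        (-((x'.o k : ℝ) - (2 ^ (i * n) * (S'.o k : ℝ) + ((x'.T : ℝ) - 2 ^ (2 * i * n) * (S.T : ℝ)) * s i S.τ k))) +
        (2 ^ (i * n) * ((S.o k : ℝ) - S'.o k) + ((x.T : ℝ) - x'.T) * s i S.τ k) := by ring
    have hi0 : (0:ℝ) ≤ i := Nat.cast_nonneg _
    have hj : (i:ℝ) ≤ j := by
      have : i ≤ j := by omega
      exact_mod_cast this
    have q1 : (2:ℝ) ^ (i * n) ≤ 2 ^ (2 * j * n) := pow_le_pow_right₀ (by norm_num) (by nlinarith [Nat.zero_le (i * n), Nat.zero_le (j * n)])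
    have q2 : (2:ℝ) ^ (i * n) * 2 ^ n ≤ 2 ^ (2 * j * n) := by
      rw [← pow_add]
      exact pow_le_pow_right₀ (by norm_num) (by nlinarith [Nat.zero_le (i * n), Nat.zero_le n])
    have q3 : (2:ℝ) ^ (2 * i * n) ≤ 2 ^ (2 * j * n) := pow_le_pow_right₀ (by norm_num) (by nlinarith [Nat.zero_le (i * n), Nat.zero_le n])
    have r1 : |2 ^ (i * n) * ((S.o k : ℝ) - S'.o k) + ((x.T : ℝ) - x'.T) * s i S.τ k| ≤ 2 * 2 ^ (2 * j * n) := by
      refine (abs_add_le _ _).trans ?_
      rw [abs_mul, abs_mul, abs_of_pos (by positivity : (0:ℝ) < 2 ^ (i * n))]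
      have s1 : (2:ℝ) ^ (i * n) * |(S.o k : ℝ) - S'.o k| ≤ 2 ^ (i * n) * 2 ^ n := mul_le_mul_of_nonneg_left hod (by positivity)
      have s2 : |(x.T : ℝ) - x'.T| * |s i S.τ k| ≤ 2 ^ (2 * i * n) * 1 := mul_le_mul hTd hsl (abs_nonneg _) (by positivity)
      linarith
    have r2 : (C + 2) * i * 2 ^ (i * n) ≤ (C + 2) * j * 2 ^ (2 * j * n) := by
      have : (0:ℝ) ≤ (C + 2) := by linarith
      gcongr
    have r3 : |(x.o k : ℝ) - x'.o k| ≤ (2 + 2 * ((C + 2) * j)) * 2 ^ (2 * j * n) := by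
      rw [e1]
      refine (abs_add_three _ _ _).trans ?_
      rw [abs_neg]
      have e2 : (2 + 2 * ((C + 2) * j)) * (2:ℝ) ^ (2 * j * n) = (C + 2) * j * 2 ^ (2 * j * n) + (C + 2) * j * 2 ^ (2 * j * n) +
        2 * 2 ^ (2 * j * n) := by ring
      rw [e2]
      have p1' := p1.trans r2
      have p2' := p2.trans r2
      linarith
    have r4 : |(x.o k : ℝ) - x'.o k| ≤ (Mth C j : ℝ) * 2 ^ (2 * j * n) :=
      r3.trans (mul_le_mul_of_nonneg_right (Nat.le_ceil _) (by positivity))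
    exact_mod_cast r4

end Vale.Agent.P076.NS
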